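import Vale.Agent.Lib.P080.Main

namespace Vale.Agent.Lib.P080

open Set Filter Topology

variable {d : ℕ}

theorem sepFun_hasFDerivAt (α β : Fin d → ℝ) (f : Fin d → ℝ → ℝ) (A : ℝ) (hA : 0 < A)
    (h : ∀ i, ContinuousOn (f i) (Ioo (α i) (β i)) ∧
      Sup1 (f i) (α i) (β i) A ∧ Sup1 (fun s => -f i s) (α i) (β i) A)
    (x : EuclideanSpace ℝ (Fin d)) (hx : x ∈ box α β) :
    HasFDerivAt (sepFun f)
      (∑ i, deriv (f i) (x i) • (EuclideanSpace.proj i : EuclideanSpace ℝ (Fin d) →L[ℝ] ℝ)) x := by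
  unfold sepFun
  apply HasFDerivAt.fun_sum
  intro i _
  have h1 : HasDerivAt (f i) (deriv (f i) (x i)) (x i) :=
    (oneD_differentiableAt hA (h i).1 (h i).2.1 (h i).2.2 (hx i).1 (hx i).2).hasDerivAt
  have h2 : HasFDerivAt (fun y : EuclideanSpace ℝ (Fin d) => y i)
      (EuclideanSpace.proj i : EuclideanSpace ℝ (Fin d) →L[ℝ] ℝ) x :=
    (EuclideanSpace.proj i : EuclideanSpace ℝ (Fin d) →L[ℝ] ℝ).hasFDerivAt
  exact h1.comp_hasFDerivAt x h2

theorem norm_sum_smul_proj_le (a : Fin d → ℝ) :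
    ‖∑ i, a i • (EuclideanSpace.proj i : EuclideanSpace ℝ (Fin d) →L[ℝ] ℝ)‖ ≤ ∑ i, |a i| := by
  apply ContinuousLinearMap.opNorm_le_bound _ (Finset.sum_nonneg (fun i _ => abs_nonneg _))
  intro v
  rw [ContinuousLinearMap.sum_apply, Finset.sum_mul]
  refine (norm_sum_le _ _).trans ?_
  apply Finset.sum_le_sum
  intro i _
  rw [ContinuousLinearMap.smul_apply, norm_smul, Real.norm_eq_abs]
  apply mul_le_mul_of_nonneg_left _ (abs_nonneg _)
  exact PiLp.norm_apply_le v i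

theorem sum_cube_le (a : Fin d → ℝ) (B : ℝ) (ha : ∀ i, 0 ≤ a i) (hB : ∀ i, a i ^ 3 ≤ B) :
    (∑ i, a i) ^ 3 ≤ (d : ℝ) ^ 3 * B := by
  rcases Nat.eq_zero_or_pos d with hd | hd
  · subst hd
    simp
  · haveI : Nonempty (Fin d) := ⟨⟨0, hd⟩⟩
    obtain ⟨i0, -, hi0⟩ := Finset.exists_max_image (Finset.univ : Finset (Fin d)) a
      Finset.univ_nonempty
    have h1 : ∑ i, a i ≤ (d : ℝ) * a i0 := by
      have := Finset.sum_le_card_nsmul (Finset.univ : Finset (Fin d)) a (a i0)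
        (fun i hi => hi0 i hi)
      simpa using this
    have h2 : 0 ≤ ∑ i, a i := Finset.sum_nonneg (fun i _ => ha i)
    have h3 : (∑ i, a i) ^ 3 ≤ ((d : ℝ) * a i0) ^ 3 := pow_le_pow_left₀ h2 h1 3
    have h4 : ((d : ℝ) * a i0) ^ 3 = (d : ℝ) ^ 3 * a i0 ^ 3 := by ring
    have h5 : (d : ℝ) ^ 3 * a i0 ^ 3 ≤ (d : ℝ) ^ 3 * B :=
      mul_le_mul_of_nonneg_left (hB i0) (by positivity)
    linarith

/-- the gradient of a separable infinity-harmonic function on a box is Hölder continuous with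
exponent `1/3` -/
theorem sep_holder (α β : Fin d → ℝ) (f : Fin d → ℝ → ℝ)
    (hu : IsInfHarmonicOn (sepFun f) (box α β)) :
    ∃ C : ℝ, ∀ x ∈ box α β, ∀ y ∈ box α β,
      ‖fderiv ℝ (sepFun f) x - fderiv ℝ (sepFun f) y‖ ^ 3 ≤ C * ‖x - y‖ := by
  rcases (box α β).eq_empty_or_nonempty with hempty | ⟨z0, hz0⟩
  · exact ⟨0, fun x hx => by rw [hempty] at hx; exact absurd hx (notMem_empty x)⟩
  obtain ⟨A, hA, h⟩ := sep_exists_A α β f hu z0 hz0
  refine ⟨(d : ℝ) ^ 3 * (4096 * A), ?_⟩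
  intro x hx y hy
  rw [(sepFun_hasFDerivAt α β f A hA h x hx).fderiv, (sepFun_hasFDerivAt α β f A hA h y hy).fderiv,
    ← Finset.sum_sub_distrib]
  have e : ∑ i, (deriv (f i) (x i) • (EuclideanSpace.proj i : EuclideanSpace ℝ (Fin d) →L[ℝ] ℝ) -
      deriv (f i) (y i) • (EuclideanSpace.proj i : EuclideanSpace ℝ (Fin d) →L[ℝ] ℝ)) =
      ∑ i, (deriv (f i) (x i) - deriv (f i) (y i)) •
        (EuclideanSpace.proj i : EuclideanSpace ℝ (Fin d) →L[ℝ] ℝ) := by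
    apply Finset.sum_congr rfl
    intro i _
    rw [sub_smul]
  rw [e]
  have h1 := norm_sum_smul_proj_le (fun i => deriv (f i) (x i) - deriv (f i) (y i))
  have h2 : ‖∑ i, (deriv (f i) (x i) - deriv (f i) (y i)) •
      (EuclideanSpace.proj i : EuclideanSpace ℝ (Fin d) →L[ℝ] ℝ)‖ ^ 3 ≤
      (∑ i, |deriv (f i) (x i) - deriv (f i) (y i)|) ^ 3 :=
    pow_le_pow_left₀ (norm_nonneg _) h1 3
  have h3 : (∑ i, |deriv (f i) (x i) - deriv (f i) (y i)|) ^ 3 ≤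
      (d : ℝ) ^ 3 * (4096 * A * ‖x - y‖) := by
    apply sum_cube_le _ _ (fun i => abs_nonneg _)
    intro i
    have h4 := oneD_deriv_holder hA (h i).1 (h i).2.1 (h i).2.2 (hx i) (hy i)
    have h5 : |x i - y i| ≤ ‖x - y‖ := by
      have := PiLp.norm_apply_le (x - y) i
      simpa [Real.norm_eq_abs] using this
    have h6 : 4096 * A * |x i - y i| ≤ 4096 * A * ‖x - y‖ :=
      mul_le_mul_of_nonneg_left h5 (by positivity)
    linarith
  calc _ ≤ _ := h2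
    _ ≤ _ := h3
    _ = (d : ℝ) ^ 3 * (4096 * A) * ‖x - y‖ := by ring

end Vale.Agent.Lib.P080
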