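import Vale.Agent.Lib.P080.Sharp
import Vale.Agent.Lib.P080.Holder

namespace Vale.Agent.Lib.P080

open Set Filter Topology

variable {d : ℕ}

/-- the values `p ^ 2 * X` over all parabolas touching `g` from below on `(α, β)` -/
def lowVals (g : ℝ → ℝ) (α β : ℝ) : Set ℝ :=
  {v | ∃ t, α < t ∧ t < β ∧ ∃ c p X : ℝ,
    IsLocalMin (fun s => g s - parab t c p X s) t ∧ v = p ^ 2 * X}

/-- the separable supersolution inequality for a family of one-dimensional functions -/
def SubSum (g : Fin d → ℝ → ℝ) (α β : Fin d → ℝ) : Prop :=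
  ∀ v : Fin d → ℝ, (∀ i, v i ∈ lowVals (g i) (α i) (β i)) → ∑ i, v i ≤ 0

theorem subSum_of_harmonic (α β : Fin d → ℝ) (f : Fin d → ℝ → ℝ)
    (hu : IsInfHarmonicOn (sepFun f) (box α β)) : SubSum f α β := by
  intro v hv
  choose t ht1 ht2 c p X hloc hveq using hv
  have hz : (WithLp.toLp 2 t : EuclideanSpace ℝ (Fin d)) ∈ box α β := fun j => ⟨ht1 j, ht2 j⟩
  have h1 := (hu.2 (sepTest t c p X) (sepTest_contDiff t c p X) _ hz).2
    (sep_isLocalMin f t c p X hloc)
  rw [infLaplacian_sepTest] at h1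
  have : ∑ i, v i = ∑ i, p i ^ 2 * X i := Finset.sum_congr rfl (fun i _ => hveq i)
  rw [this]; exact h1

theorem subSum_neg_of_harmonic (α β : Fin d → ℝ) (f : Fin d → ℝ → ℝ)
    (hu : IsInfHarmonicOn (sepFun f) (box α β)) : SubSum (fun i s => -f i s) α β := by
  intro v hv
  choose t ht1 ht2 c p X hloc hveq using hv
  have hz : (WithLp.toLp 2 t : EuclideanSpace ℝ (Fin d)) ∈ box α β := fun j => ⟨ht1 j, ht2 j⟩
  have hloc' : ∀ j, IsLocalMax (fun s => f j s - parab (t j) (-c j) (-p j) (-X j) s) (t j) := by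
    intro j
    have := (hloc j).neg
    have heq : (fun s => f j s - parab (t j) (-c j) (-p j) (-X j) s) =
        fun s => -(-f j s - parab (t j) (c j) (p j) (X j) s) := by
      funext s
      simp only [parab]; ring
    rw [heq]; exact this
  have h1 := (hu.2 (sepTest t (fun j => -c j) (fun j => -p j) (fun j => -X j))
    (sepTest_contDiff t _ _ _) _ hz).1
    (sep_isLocalMax f t (fun j => -c j) (fun j => -p j) (fun j => -X j) hloc')
  rw [infLaplacian_sepTest] at h1
  have : ∑ i, v i = -∑ i, (-p i) ^ 2 * (-X i) := by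
    rw [← Finset.sum_neg_distrib]
    apply Finset.sum_congr rfl
    intro i _
    rw [hveq i]; ring
  rw [this]; linarith

/-- abstract supremum argument -/
theorem sum_sSup_le (S : Fin d → Set ℝ) (hne : ∀ i, (S i).Nonempty)
    (h : ∀ v : Fin d → ℝ, (∀ i, v i ∈ S i) → ∑ i, v i ≤ 0) :
    (∀ i, BddAbove (S i)) ∧ ∑ i, sSup (S i) ≤ 0 := by
  classical
  choose w0 hw0 using hne
  have hbdd : ∀ i, BddAbove (S i) := by
    intro i
    refine ⟨-∑ j ∈ Finset.univ.erase i, w0 j, ?_⟩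
    intro x hx
    have h1 := h (Function.update w0 i x) (by
      intro j
      by_cases hj : j = i
      · subst hj; simp only [Function.update_self]; exact hx
      · simp only [Function.update_of_ne hj]; exact hw0 j)
    rw [← Finset.add_sum_erase Finset.univ _ (Finset.mem_univ i)] at h1
    have h2 : ∑ j ∈ Finset.univ.erase i, Function.update w0 i x j =
        ∑ j ∈ Finset.univ.erase i, w0 j := by
      apply Finset.sum_congr rfl
      intro j hj
      simp only [Function.update_of_ne (Finset.ne_of_mem_erase hj)]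
    rw [h2] at h1
    simp only [Function.update_self] at h1
    linarith
  refine ⟨hbdd, ?_⟩
  by_contra hcon
  rw [not_le] at hcon
  set T : ℝ := ∑ i, sSup (S i) with hT
  set ε : ℝ := T / ((d : ℝ) + 1) with hε
  have hd1 : (0 : ℝ) < (d : ℝ) + 1 := by positivity
  have hεpos : 0 < ε := div_pos hcon hd1
  have hex : ∀ i, ∃ x ∈ S i, sSup (S i) - ε < x := fun i =>
    exists_lt_of_lt_csSup ⟨w0 i, hw0 i⟩ (by linarith)
  choose v hv1 hv2 using hex
  have h1 := h v hv1
  have h2 : ∑ i, (sSup (S i) - ε) ≤ ∑ i, v i :=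
    Finset.sum_le_sum (fun i _ => (hv2 i).le)
  rw [Finset.sum_sub_distrib] at h2
  simp only [Finset.sum_const, Finset.card_univ, Fintype.card_fin, nsmul_eq_mul] at h2
  have h3 : T - (d : ℝ) * ε = ε := by
    rw [hε]; field_simp; ring
  linarith

theorem exists_lowJet_sum (α β : Fin d → ℝ) (hαβ : ∀ i, α i < β i) (g : Fin d → ℝ → ℝ)
    (hc : ∀ i, ContinuousOn (g i) (Ioo (α i) (β i))) (hS : SubSum g α β) :
    ∃ M : Fin d → ℝ, ∑ i, M i ≤ 0 ∧ ∀ i, LowJet (g i) (α i) (β i) (M i) := by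
  have hne : ∀ i, (lowVals (g i) (α i) (β i)).Nonempty := by
    intro i
    obtain ⟨t, h1, h2, c, p, X, hmin⟩ := exists_jet_min (hαβ i) (hc i)
    exact ⟨p ^ 2 * X, t, h1, h2, c, p, X, hmin, rfl⟩
  obtain ⟨hb, hsum⟩ := sum_sSup_le (fun i => lowVals (g i) (α i) (β i)) hne hS
  refine ⟨fun i => sSup (lowVals (g i) (α i) (β i)), hsum, ?_⟩
  intro i t h1 h2 c p X hmin
  exact le_csSup (hb i) ⟨t, h1, h2, c, p, X, hmin, rfl⟩

theorem cube_diff_eq {g : ℝ → ℝ} {α β M N : ℝ}
    (hd : ∀ r ∈ Ioo α β, DifferentiableAt ℝ g r) (hc : ContinuousOn (deriv g) (Ioo α β))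
    (hM : LowJet g α β M) (hN : LowJet (fun s => -g s) α β N) {s t : ℝ} (hs : α < s)
    (hst : s ≤ t) (ht : t < β) :
    -(3 * N * (t - s)) ≤ deriv g t ^ 3 - deriv g s ^ 3 ∧
      deriv g t ^ 3 - deriv g s ^ 3 ≤ 3 * M * (t - s) := by
  refine ⟨?_, sharp_cube hd hc hM hs hst ht⟩
  have hdn : ∀ r ∈ Ioo α β, DifferentiableAt ℝ (fun s => -g s) r := fun r hr => (hd r hr).fun_neg
  have hdeq : deriv (fun s => -g s) = fun r => -deriv g r := by
    funext r
    exact deriv.fun_neg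
  have hcn : ContinuousOn (deriv (fun s => -g s)) (Ioo α β) := by
    rw [hdeq]; exact hc.neg
  have h1 := sharp_cube hdn hcn hN hs hst ht
  rw [hdeq] at h1
  have e : (-deriv g t) ^ 3 - (-deriv g s) ^ 3 = -(deriv g t ^ 3 - deriv g s ^ 3) := by ring
  simp only at h1
  rw [e] at h1
  linarith

/-- **Classification, necessity**: if `f_1(x_1) + ... + f_d(x_d)` is infinity-harmonic on a
nonempty open box, then each `f_i` is differentiable and `(f_i') ^ 3` is an affine function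
`a_i t + b_i`, with `a_1 + ... + a_d = 0`. -/
theorem sep_classify (α β : Fin d → ℝ) (hαβ : ∀ i, α i < β i) (f : Fin d → ℝ → ℝ)
    (hu : IsInfHarmonicOn (sepFun f) (box α β)) :
    ∃ a b : Fin d → ℝ, ∑ i, a i = 0 ∧ ∀ i, ∀ t ∈ Ioo (α i) (β i),
      DifferentiableAt ℝ (f i) t ∧ deriv (f i) t ^ 3 = a i * t + b i := by
  classical
  let t0 : Fin d → ℝ := fun i => (α i + β i) / 2
  have ht0 : ∀ i, α i < t0 i ∧ t0 i < β i := fun i =>
    ⟨by simp only [t0]; linarith [hαβ i], by simp only [t0]; linarith [hαβ i]⟩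
  have hz0 : (WithLp.toLp 2 t0 : EuclideanSpace ℝ (Fin d)) ∈ box α β := fun i => ht0 i
  obtain ⟨A, hA, h⟩ := sep_exists_A α β f hu _ hz0
  have hd : ∀ i, ∀ r ∈ Ioo (α i) (β i), DifferentiableAt ℝ (f i) r := fun i r hr =>
    oneD_differentiableAt hA (h i).1 (h i).2.1 (h i).2.2 hr.1 hr.2
  have hcd : ∀ i, ContinuousOn (deriv (f i)) (Ioo (α i) (β i)) := fun i =>
    (oneD_contDiffOn hA (h i).1 (h i).2.1 (h i).2.2).continuousOn_deriv_of_isOpen isOpen_Ioo
      le_rfl
  obtain ⟨M, hMsum, hM⟩ := exists_lowJet_sum α β hαβ f (fun i => (h i).1)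
    (subSum_of_harmonic α β f hu)
  obtain ⟨N, hNsum, hN⟩ := exists_lowJet_sum α β hαβ (fun i s => -f i s)
    (fun i => (h i).1.neg) (subSum_neg_of_harmonic α β f hu)
  have hbd : ∀ i s t, α i < s → s ≤ t → t < β i →
      -(3 * N i * (t - s)) ≤ deriv (f i) t ^ 3 - deriv (f i) s ^ 3 ∧
      deriv (f i) t ^ 3 - deriv (f i) s ^ 3 ≤ 3 * M i * (t - s) :=
    fun i s t hs hst ht => cube_diff_eq (hd i) (hcd i) (hM i) (hN i) hs hst ht
  have hMN : ∀ i, 0 ≤ M i + N i := by
    intro i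
    have h1 := hbd i (t0 i) ((t0 i + β i) / 2) (ht0 i).1 (by linarith [(ht0 i).2])
      (by linarith [(ht0 i).2])
    have h2 : 0 < (t0 i + β i) / 2 - t0 i := by linarith [(ht0 i).2]
    have h3 : 0 ≤ 3 * (M i + N i) * ((t0 i + β i) / 2 - t0 i) := by linarith [h1.1, h1.2]
    by_contra hcon
    rw [not_le] at hcon
    nlinarith
  have hsumMN : ∑ i, (M i + N i) = ∑ i, M i + ∑ i, N i := Finset.sum_add_distrib
  have hsum0 : 0 ≤ ∑ i, (M i + N i) := Finset.sum_nonneg (fun i _ => hMN i)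
  have hMsum0 : ∑ i, M i = 0 := by linarith
  have hMN0 : ∀ i, M i + N i = 0 := by
    intro i
    have h1 : ∑ i, (M i + N i) = 0 := by linarith
    exact (Finset.sum_eq_zero_iff_of_nonneg (fun i _ => hMN i)).mp h1 i (Finset.mem_univ i)
  have heq : ∀ i s t, α i < s → s ≤ t → t < β i →
      deriv (f i) t ^ 3 - deriv (f i) s ^ 3 = 3 * M i * (t - s) := by
    intro i s t hs hst ht
    have h1 := hbd i s t hs hst ht
    have h2 : N i = -M i := by linarith [hMN0 i]
    rw [h2] at h1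
    linarith [h1.1, h1.2]
  refine ⟨fun i => 3 * M i, fun i => deriv (f i) (t0 i) ^ 3 - 3 * M i * t0 i, ?_, ?_⟩
  · rw [← Finset.mul_sum, hMsum0, mul_zero]
  · intro i t ht
    refine ⟨hd i t ht, ?_⟩
    rcases le_total (t0 i) t with hle | hle
    · have := heq i (t0 i) t (ht0 i).1 hle ht.2
      linarith
    · have := heq i t (t0 i) ht.1 hle (ht0 i).2
      linarith

end Vale.Agent.Lib.P080
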