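import Vale.Agent.Lib.P080.Defs

namespace Vale.Agent.Lib.P080

/-- `u` is infinity-harmonic on `Ω` in the viscosity sense, tested with all functions that are of
class `C^2` near the touching point: `u` is continuous on `Ω`, and for every `z ∈ Ω` and every
`φ` that is `C^2` at `z` (that is, in a neighbourhood of `z`), if `u - φ` has a local maximum at
`z` then `Δ_∞ φ (z) ≥ 0`, and if `u - φ` has a local minimum at `z` then `Δ_∞ φ (z) ≤ 0`. -/
def IsInfHarmonicLocOn {d : ℕ} (u : EuclideanSpace ℝ (Fin d) → ℝ)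
    (Ω : Set (EuclideanSpace ℝ (Fin d))) : Prop :=
  ContinuousOn u Ω ∧
    ∀ φ : EuclideanSpace ℝ (Fin d) → ℝ, ∀ z ∈ Ω, ContDiffAt ℝ 2 φ z →
      (IsLocalMax (fun x => u x - φ x) z → 0 ≤ infLaplacian φ z) ∧
      (IsLocalMin (fun x => u x - φ x) z → infLaplacian φ z ≤ 0)

theorem IsInfHarmonicLocOn.isInfHarmonicOn {d : ℕ} {u : EuclideanSpace ℝ (Fin d) → ℝ}
    {Ω : Set (EuclideanSpace ℝ (Fin d))} (h : IsInfHarmonicLocOn u Ω) : IsInfHarmonicOn u Ω :=
  ⟨h.1, fun φ hφ z hz => h.2 φ z hz hφ.contDiffAt⟩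

end Vale.Agent.Lib.P080
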