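import Vale.Agent.Lib.P080.Classify
import Vale.Agent.Lib.P080.DefsLoc

namespace Vale.Agent.Lib.P080

open Set Filter Topology

variable {d : ℕ}

/-- second-order necessary condition at a local minimum -/
theorem second_deriv_nonneg_of_isLocalMin {w w' : ℝ → ℝ} {κ : ℝ}
    (h1 : ∀ᶠ s in 𝓝 (0 : ℝ), HasDerivAt w (w' s) s) (h2 : HasDerivAt w' κ 0)
    (hmin : IsLocalMin w 0) : 0 ≤ κ := by
  by_contra hcon
  rw [not_le] at hcon
  have e1 : deriv w =ᶠ[𝓝 0] w' := h1.mono (fun s hs => hs.deriv)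
  have e2 : deriv (deriv w) 0 = κ := by rw [e1.deriv_eq]; exact h2.deriv
  have e3 : deriv w 0 = 0 := hmin.deriv_eq_zero
  have hc : ContinuousAt w 0 := h1.self_of_nhds.continuousAt
  have hmax : IsLocalMax w 0 := isLocalMax_of_deriv_deriv_neg (by rw [e2]; exact hcon) e3 hc
  have hconst : w =ᶠ[𝓝 0] fun _ => w 0 := by
    filter_upwards [hmin, hmax] with s hs1 hs2
    exact le_antisymm hs2 hs1
  have e4 : deriv w =ᶠ[𝓝 0] deriv (fun _ => w 0) := hconst.deriv
  have e5 : deriv (deriv w) 0 = 0 := by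
    rw [e4.deriv_eq]; simp
  linarith

/-- second-order necessary condition at a local maximum -/
theorem second_deriv_nonpos_of_isLocalMax {w w' : ℝ → ℝ} {κ : ℝ}
    (h1 : ∀ᶠ s in 𝓝 (0 : ℝ), HasDerivAt w (w' s) s) (h2 : HasDerivAt w' κ 0)
    (hmax : IsLocalMax w 0) : κ ≤ 0 := by
  have h1' : ∀ᶠ s in 𝓝 (0 : ℝ), HasDerivAt (fun s => -w s) (-w' s) s :=
    h1.mono (fun s hs => hs.neg)
  have h2' : HasDerivAt (fun s => -w' s) (-κ) 0 := h2.neg
  have := second_deriv_nonneg_of_isLocalMin h1' h2' hmax.neg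
  linarith

/-- a function whose cube is affine is differentiable where it does not vanish -/
theorem hasDerivAt_of_cube_affine {q : ℝ → ℝ} {a b z : ℝ}
    (hq : ∀ᶠ t in 𝓝 z, q t ^ 3 = a * t + b) (hz : q z ≠ 0) :
    HasDerivAt q (a / (3 * q z ^ 2)) z := by
  set p := q z with hp
  have hpz : p ^ 3 = a * z + b := hq.self_of_nhds
  have hp2 : 0 < p ^ 2 := by positivity
  have hD : ∀ x : ℝ, 3 / 4 * p ^ 2 ≤ x ^ 2 + x * p + p ^ 2 := by
    intro x; nlinarith [sq_nonneg (x + p / 2)]
  have hfac : ∀ᶠ t in 𝓝 z, (q t - p) * (q t ^ 2 + q t * p + p ^ 2) = a * (t - z) := by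
    filter_upwards [hq] with t ht
    have : (q t - p) * (q t ^ 2 + q t * p + p ^ 2) = q t ^ 3 - p ^ 3 := by ring
    rw [this, ht, hpz]; ring
  -- continuity of q at z
  have hcont : ContinuousAt q z := by
    rw [Metric.continuousAt_iff]
    intro ε hε
    have hfac' := Metric.eventually_nhds_iff.mp hfac
    obtain ⟨δ, hδ, hδ'⟩ := hfac'
    refine ⟨min δ (ε * (3 / 4 * p ^ 2) / (|a| + 1)), lt_min hδ (by positivity), ?_⟩
    intro t ht
    rw [Real.dist_eq] at ht ⊢
    have h1 := hδ' (lt_of_lt_of_le ht (min_le_left _ _))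
    have h2 : |t - z| < ε * (3 / 4 * p ^ 2) / (|a| + 1) := lt_of_lt_of_le ht (min_le_right _ _)
    have h3 : |q t - p| * (3 / 4 * p ^ 2) ≤ |a| * |t - z| := by
      have : |q t - p| * (q t ^ 2 + q t * p + p ^ 2) = |a| * |t - z| := by
        rw [← abs_mul, ← h1, abs_mul, abs_of_pos (lt_of_lt_of_le (by positivity) (hD (q t)))]
      rw [← this]
      exact mul_le_mul_of_nonneg_left (hD (q t)) (abs_nonneg _)
    have h4 : |a| * |t - z| < ε * (3 / 4 * p ^ 2) := by
      have h5 : (|a| + 1) * |t - z| < ε * (3 / 4 * p ^ 2) := by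
        rw [lt_div_iff₀ (by positivity)] at h2
        linarith
      nlinarith [abs_nonneg (t - z), abs_nonneg a]
    have h6 : 0 < 3 / 4 * p ^ 2 := by positivity
    by_contra hcon
    rw [not_lt] at hcon
    have := mul_le_mul_of_nonneg_right hcon h6.le
    linarith
  rw [hasDerivAt_iff_tendsto_slope]
  have hlim : Tendsto (fun t => a / (q t ^ 2 + q t * p + p ^ 2)) (𝓝 z)
      (𝓝 (a / (p ^ 2 + p * p + p ^ 2))) := by
    apply Tendsto.div tendsto_const_nhds
    · exact ((hcont.tendsto.pow 2).add (hcont.tendsto.mul tendsto_const_nhds)).add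
        tendsto_const_nhds
    · have : 0 < p ^ 2 + p * p + p ^ 2 := by nlinarith
      exact this.ne'
  have e : a / (p ^ 2 + p * p + p ^ 2) = a / (3 * p ^ 2) := by ring_nf
  rw [e] at hlim
  refine (hlim.mono_left nhdsWithin_le_nhds).congr' ?_
  have hfac2 : ∀ᶠ t in 𝓝[≠] z, (q t - p) * (q t ^ 2 + q t * p + p ^ 2) = a * (t - z) :=
    nhdsWithin_le_nhds hfac
  filter_upwards [hfac2, self_mem_nhdsWithin] with t ht hne
  rw [slope_def_field]
  have hDpos : 0 < q t ^ 2 + q t * p + p ^ 2 := lt_of_lt_of_le (by positivity) (hD (q t))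
  have hne' : t - z ≠ 0 := sub_ne_zero.mpr hne
  rw [div_eq_div_iff hDpos.ne' hne', ← hp]
  linarith

/-- the derivative in a direction `P` in terms of the partial derivatives -/
theorem fderiv_apply_eq_sum (F : EuclideanSpace ℝ (Fin d) → ℝ) (y P : EuclideanSpace ℝ (Fin d)) :
    fderiv ℝ F y P = ∑ j, P j * partialDeriv j F y := by
  unfold partialDeriv
  have hP : P = ∑ j, P j • EuclideanSpace.single j (1 : ℝ) := by
    ext k
    simp [Pi.single_apply]
  conv_lhs => rw [hP]
  rw [map_sum]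
  simp [map_smul]

theorem hasDerivAt_line (F : EuclideanSpace ℝ (Fin d) → ℝ) (z P : EuclideanSpace ℝ (Fin d)) (s : ℝ)
    (hF : DifferentiableAt ℝ F (z + s • P)) :
    HasDerivAt (fun s : ℝ => F (z + s • P)) (∑ j, P j * partialDeriv j F (z + s • P)) s := by
  have hγ : HasDerivAt (fun s : ℝ => z + s • P) P s := by
    have := ((hasDerivAt_id s).smul_const P).const_add z
    simpa using this
  have h := hF.hasFDerivAt.comp_hasDerivAt s hγ
  rw [fderiv_apply_eq_sum] at h
  exact h

theorem hasDerivAt_line_single (F : EuclideanSpace ℝ (Fin d) → ℝ) (z : EuclideanSpace ℝ (Fin d))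
    (i : Fin d) (s : ℝ)
    (hF : DifferentiableAt ℝ F (z + s • EuclideanSpace.single i (1 : ℝ))) :
    HasDerivAt (fun s : ℝ => F (z + s • EuclideanSpace.single i (1 : ℝ)))
      (partialDeriv i F (z + s • EuclideanSpace.single i (1 : ℝ))) s := by
  have hγ : HasDerivAt (fun s : ℝ => z + s • EuclideanSpace.single i (1 : ℝ))
      (EuclideanSpace.single i (1 : ℝ)) s := by
    have := ((hasDerivAt_id s).smul_const (EuclideanSpace.single i (1 : ℝ))).const_add z
    simpa using this
  exact hF.hasFDerivAt.comp_hasDerivAt s hγ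

theorem sepFun_hasFDerivAt' (f : Fin d → ℝ → ℝ) (x : EuclideanSpace ℝ (Fin d))
    (hd : ∀ i, DifferentiableAt ℝ (f i) (x i)) :
    HasFDerivAt (sepFun f)
      (∑ i, deriv (f i) (x i) • (EuclideanSpace.proj i : EuclideanSpace ℝ (Fin d) →L[ℝ] ℝ)) x := by
  unfold sepFun
  apply HasFDerivAt.fun_sum
  intro i _
  have h1 : HasDerivAt (f i) (deriv (f i) (x i)) (x i) := (hd i).hasDerivAt
  have h2 : HasFDerivAt (fun y : EuclideanSpace ℝ (Fin d) => y i)
      (EuclideanSpace.proj i : EuclideanSpace ℝ (Fin d) →L[ℝ] ℝ) x :=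
    (EuclideanSpace.proj i : EuclideanSpace ℝ (Fin d) →L[ℝ] ℝ).hasFDerivAt
  exact h1.comp_hasFDerivAt x h2

/-- first-order condition at a touching point -/
theorem partialDeriv_eq_of_isLocalMax (f : Fin d → ℝ → ℝ) (φ : EuclideanSpace ℝ (Fin d) → ℝ)
    (z : EuclideanSpace ℝ (Fin d)) (hd : ∀ i, DifferentiableAt ℝ (f i) (z i))
    (hφ : DifferentiableAt ℝ φ z) (hmax : IsLocalMax (fun x => sepFun f x - φ x) z) (j : Fin d) :
    partialDeriv j φ z = deriv (f j) (z j) := by
  have h1 := (sepFun_hasFDerivAt' f z hd).sub hφ.hasFDerivAt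
  have h2 := hmax.hasFDerivAt_eq_zero h1
  have h3 : fderiv ℝ φ z =
      ∑ i, deriv (f i) (z i) • (EuclideanSpace.proj i : EuclideanSpace ℝ (Fin d) →L[ℝ] ℝ) := by
    rw [sub_eq_zero] at h2; exact h2.symm
  unfold partialDeriv
  rw [h3]
  simp [PiLp.single_apply]

theorem contDiffAt_differentiable_near (φ : EuclideanSpace ℝ (Fin d) → ℝ)
    (z : EuclideanSpace ℝ (Fin d)) (hφ : ContDiffAt ℝ 2 φ z) :
    ∀ᶠ y in 𝓝 z, DifferentiableAt ℝ φ y := by
  have h := hφ.eventually (by simp)
  filter_upwards [h] with y hy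
  exact hy.differentiableAt (by norm_num)

theorem partialDeriv_differentiableAt (φ : EuclideanSpace ℝ (Fin d) → ℝ)
    (z : EuclideanSpace ℝ (Fin d)) (hφ : ContDiffAt ℝ 2 φ z) (j : Fin d) :
    DifferentiableAt ℝ (partialDeriv j φ) z := by
  have h1 : ContDiffAt ℝ 1 (fderiv ℝ φ) z := hφ.fderiv_right (m := 1) (by norm_num)
  have h2 : DifferentiableAt ℝ (fderiv ℝ φ) z := h1.differentiableAt (by norm_num)
  exact h2.clm_apply (differentiableAt_const _)

theorem cube_lt_cube {x y : ℝ} (h : x < y) : x ^ 3 < y ^ 3 :=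
  (Odd.strictMono_pow (by decide : Odd 3)) h

/-- if `(g') ^ 3 = a (t - z)` with `a > 0`, then `g` grows faster than any parabola at `z` -/
theorem cube_growth {g : ℝ → ℝ} {a z α β : ℝ} (ha : 0 < a) (hz : z ∈ Ioo α β)
    (hd : ∀ t ∈ Ioo α β, DifferentiableAt ℝ g t)
    (hq : ∀ t ∈ Ioo α β, deriv g t ^ 3 = a * (t - z)) {K : ℝ} (hK : 0 < K) :
    ∀ᶠ s in 𝓝 (0 : ℝ), K * s ^ 2 ≤ g (z + s) - g z := by
  set δ : ℝ := min (min (z - α) (β - z)) (min 1 (a / (8 * K ^ 3))) with hδ
  have hK3 : 0 < 8 * K ^ 3 := by positivity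
  have hδpos : 0 < δ :=
    lt_min (lt_min (by linarith [hz.1]) (by linarith [hz.2])) (lt_min one_pos (by positivity))
  have hδ1 : δ ≤ z - α := le_trans (min_le_left _ _) (min_le_left _ _)
  have hδ2 : δ ≤ β - z := le_trans (min_le_left _ _) (min_le_right _ _)
  have hδ3 : δ ≤ 1 := le_trans (min_le_right _ _) (min_le_left _ _)
  have hδ4 : δ ≤ a / (8 * K ^ 3) := le_trans (min_le_right _ _) (min_le_right _ _)
  have hsq : ∀ c : ℝ, |c| < δ → 8 * K ^ 3 * c ^ 2 ≤ a := by
    intro c hc
    have h1 : c ^ 2 ≤ δ := by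
      have : c ^ 2 = |c| ^ 2 := (sq_abs c).symm
      rw [this]
      nlinarith [abs_nonneg c]
    have h2 : c ^ 2 ≤ a / (8 * K ^ 3) := le_trans h1 hδ4
    rw [le_div_iff₀ hK3] at h2
    linarith
  let h : ℝ → ℝ := fun r => g (z + r) - K * r ^ 2
  have hh : ∀ r, |r| < δ → HasDerivAt h (deriv g (z + r) - 2 * K * r) r := by
    intro r hr
    rw [abs_lt] at hr
    have hmem : z + r ∈ Ioo α β := ⟨by linarith [hr.1], by linarith [hr.2]⟩
    have h1 : HasDerivAt (fun r : ℝ => z + r) 1 r := (hasDerivAt_id r).const_add z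
    have h2 : HasDerivAt (fun r : ℝ => g (z + r)) (deriv g (z + r) * 1) r :=
      (hd _ hmem).hasDerivAt.comp r h1
    have h3 : HasDerivAt (fun r : ℝ => K * r ^ 2) (K * (2 * r)) r := by
      have := (hasDerivAt_pow 2 r).const_mul K
      simpa using this
    exact (h2.sub h3).congr_deriv (by ring)
  have hqr : ∀ r, |r| < δ → deriv g (z + r) ^ 3 = a * r := by
    intro r hr
    rw [abs_lt] at hr
    have hmem : z + r ∈ Ioo α β := ⟨by linarith [hr.1], by linarith [hr.2]⟩
    rw [hq _ hmem]; ring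
  have hmain : ∀ s, |s| < δ → h 0 ≤ h s := by
    intro s hs
    rcases lt_trichotomy s 0 with hneg | rfl | hpos
    · have hsub : ∀ c ∈ Icc s 0, |c| < δ := by
        intro c hc
        rw [abs_lt] at hs ⊢
        exact ⟨by linarith [hc.1], by linarith [hc.2]⟩
      obtain ⟨c, hc, hceq⟩ := exists_hasDerivAt_eq_slope h
        (fun r => deriv g (z + r) - 2 * K * r) hneg
        (fun r hr => (hh r (hsub r hr)).continuousAt.continuousWithinAt)
        (fun r hr => hh r (hsub r (Ioo_subset_Icc_self hr)))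
      have hc' := hsub c (Ioo_subset_Icc_self hc)
      have h1 : deriv g (z + c) ≤ 2 * K * c := by
        by_contra hcon
        rw [not_le] at hcon
        have h5 := cube_lt_cube hcon
        rw [hqr c hc'] at h5
        have h2 := hsq c hc'
        have h6 : (2 * K * c) ^ 3 = 8 * K ^ 3 * c ^ 2 * c := by ring
        rw [h6] at h5
        have h7 : a * c ≤ 8 * K ^ 3 * c ^ 2 * c :=
          mul_le_mul_of_nonpos_right h2 hc.2.le
        linarith
      have h3 : (h 0 - h s) / (0 - s) ≤ 0 := by rw [← hceq]; linarith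
      have h4 : 0 < 0 - s := by linarith
      by_contra hcon
      rw [not_le] at hcon
      have : 0 < (h 0 - h s) / (0 - s) := div_pos (by linarith) h4
      linarith
    · exact le_rfl
    · have hsub : ∀ c ∈ Icc 0 s, |c| < δ := by
        intro c hc
        rw [abs_lt] at hs ⊢
        exact ⟨by linarith [hc.1], by linarith [hc.2]⟩
      obtain ⟨c, hc, hceq⟩ := exists_hasDerivAt_eq_slope h
        (fun r => deriv g (z + r) - 2 * K * r) hpos
        (fun r hr => (hh r (hsub r hr)).continuousAt.continuousWithinAt)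
        (fun r hr => hh r (hsub r (Ioo_subset_Icc_self hr)))
      have hc' := hsub c (Ioo_subset_Icc_self hc)
      have h1 : 2 * K * c ≤ deriv g (z + c) := by
        by_contra hcon
        rw [not_le] at hcon
        have h5 := cube_lt_cube hcon
        rw [hqr c hc'] at h5
        have h2 := hsq c hc'
        have h6 : (2 * K * c) ^ 3 = 8 * K ^ 3 * c ^ 2 * c := by ring
        rw [h6] at h5
        have h7 : 8 * K ^ 3 * c ^ 2 * c ≤ a * c :=
          mul_le_mul_of_nonneg_right h2 hc.1.le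
        linarith
      have h3 : 0 ≤ (h s - h 0) / (s - 0) := by rw [← hceq]; linarith
      have h4 : 0 < s - 0 := by linarith
      by_contra hcon
      rw [not_le] at hcon
      have : (h s - h 0) / (s - 0) < 0 := div_neg_of_neg_of_pos (by linarith) h4
      linarith
  filter_upwards [Metric.ball_mem_nhds (0 : ℝ) hδpos] with s hs
  have hs' : |s| < δ := by simpa [Real.dist_eq] using hs
  have := hmain s hs'
  simp only [h, add_zero] at this
  linarith

theorem sepFun_line_single (f : Fin d → ℝ → ℝ) (z : EuclideanSpace ℝ (Fin d)) (i : Fin d)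
    (s : ℝ) :
    sepFun f (z + s • EuclideanSpace.single i (1 : ℝ)) - sepFun f z =
      f i (z i + s) - f i (z i) := by
  classical
  unfold sepFun
  rw [← Finset.sum_sub_distrib]
  rw [Finset.sum_eq_single i]
  · simp
  · intro j _ hj
    simp [hj]
  · intro h; exact absurd (Finset.mem_univ i) h

/-- at a point where `u - φ` has a local maximum, a coordinate with vanishing slope has
`a i ≤ 0` -/
theorem zero_slope_nonpos (α β : Fin d → ℝ) (f : Fin d → ℝ → ℝ) (a b : Fin d → ℝ)
    (hS : ∀ i, ∀ t ∈ Ioo (α i) (β i),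
      DifferentiableAt ℝ (f i) t ∧ deriv (f i) t ^ 3 = a i * t + b i)
    (φ : EuclideanSpace ℝ (Fin d) → ℝ) (z : EuclideanSpace ℝ (Fin d)) (hz : z ∈ box α β)
    (hφ : ContDiffAt ℝ 2 φ z) (hmax : IsLocalMax (fun x => sepFun f x - φ x) z)
    (i : Fin d) (hi : deriv (f i) (z i) = 0) : a i ≤ 0 := by
  by_contra hcon
  rw [not_le] at hcon
  set K : ℝ := |partialDeriv i (partialDeriv i φ) z| + 1 with hK
  have hKpos : 0 < K := by positivity
  let γ : ℝ → EuclideanSpace ℝ (Fin d) := fun s => z + s • EuclideanSpace.single i (1 : ℝ)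
  have hγ0 : γ 0 = z := by simp [γ]
  have hγc : ContinuousAt γ 0 := by
    have : Continuous γ := by simp only [γ]; fun_prop
    exact this.continuousAt
  have hb : b i = -(a i * z i) := by
    have := (hS i (z i) (hz i)).2
    rw [hi] at this
    have h0 : (0 : ℝ) ^ 3 = 0 := by norm_num
    rw [h0] at this
    linarith
  have hq : ∀ t ∈ Ioo (α i) (β i), deriv (f i) t ^ 3 = a i * (t - z i) := by
    intro t ht
    rw [(hS i t ht).2, hb]; ring
  have hgrow := cube_growth hcon (hz i) (fun t ht => (hS i t ht).1) hq hKpos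
  have hmax' : ∀ᶠ s in 𝓝 (0 : ℝ), sepFun f (γ s) - φ (γ s) ≤ sepFun f z - φ z := by
    have h1 : ∀ᶠ y in 𝓝 (γ 0), sepFun f y - φ y ≤ sepFun f z - φ z := by
      rw [hγ0]; exact hmax
    exact hγc.eventually h1
  let w : ℝ → ℝ := fun s => φ (γ s) - K * s ^ 2
  have hwmin : IsLocalMin w 0 := by
    filter_upwards [hmax', hgrow] with s hs1 hs2
    have h3 : sepFun f (γ s) - sepFun f z = f i (z i + s) - f i (z i) :=
      sepFun_line_single f z i s
    show φ (γ 0) - K * 0 ^ 2 ≤ φ (γ s) - K * s ^ 2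
    rw [hγ0]
    linarith
  have hdφ : ∀ᶠ s in 𝓝 (0 : ℝ), DifferentiableAt ℝ φ (γ s) := by
    have h1 : ∀ᶠ y in 𝓝 (γ 0), DifferentiableAt ℝ φ y := by
      rw [hγ0]; exact contDiffAt_differentiable_near φ z hφ
    exact hγc.eventually h1
  have hw1 : ∀ᶠ s in 𝓝 (0 : ℝ), HasDerivAt w (partialDeriv i φ (γ s) - 2 * K * s) s := by
    filter_upwards [hdφ] with s hs
    have h1 := hasDerivAt_line_single φ z i s hs
    have h3 : HasDerivAt (fun r : ℝ => K * r ^ 2) (K * (2 * s)) s := by
      have := (hasDerivAt_pow 2 s).const_mul K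
      simpa using this
    exact (h1.sub h3).congr_deriv (by ring)
  have hw2 : HasDerivAt (fun s => partialDeriv i φ (γ s) - 2 * K * s)
      (partialDeriv i (partialDeriv i φ) z - 2 * K) 0 := by
    have hψ : DifferentiableAt ℝ (partialDeriv i φ)
        (z + (0 : ℝ) • EuclideanSpace.single i (1 : ℝ)) := by
      simpa using partialDeriv_differentiableAt φ z hφ i
    have h1 := hasDerivAt_line_single (partialDeriv i φ) z i 0 hψ
    have h1' : HasDerivAt (fun s => partialDeriv i φ (γ s))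
        (partialDeriv i (partialDeriv i φ) z) 0 := by
      simpa using h1
    have h2 : HasDerivAt (fun s : ℝ => 2 * K * s) (2 * K) 0 := by
      simpa using (hasDerivAt_id (0 : ℝ)).const_mul (2 * K)
    exact h1'.sub h2
  have := second_deriv_nonneg_of_isLocalMin hw1 hw2 hwmin
  have habs := le_abs_self (partialDeriv i (partialDeriv i φ) z)
  linarith

theorem sepFun_line (f : Fin d → ℝ → ℝ) (z P : EuclideanSpace ℝ (Fin d)) (s : ℝ) :
    sepFun f (z + s • P) = ∑ i, f i (z i + s * P i) := by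
  unfold sepFun
  simp

/-- derivative of the cube-root branch along a line -/
theorem hasDerivAt_branch {q : ℝ → ℝ} {a b z p : ℝ}
    (hq : ∀ᶠ t in 𝓝 z, q t ^ 3 = a * t + b) (hp : q z = p) :
    HasDerivAt (fun s : ℝ => p * q (z + s * p)) (if p = 0 then 0 else a / 3) 0 := by
  by_cases hp0 : p = 0
  · rw [if_pos hp0]
    have e : (fun s : ℝ => p * q (z + s * p)) = fun _ => (0 : ℝ) := by
      funext s
      rw [hp0, zero_mul]
    rw [e]
    exact hasDerivAt_const _ _
  · rw [if_neg hp0]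
    have hz : q z ≠ 0 := by rw [hp]; exact hp0
    have h5 := hasDerivAt_of_cube_affine hq hz
    rw [hp] at h5
    have h3 : HasDerivAt (fun r : ℝ => z + r * p) p 0 := by
      have := ((hasDerivAt_id (0 : ℝ)).mul_const p).const_add z
      simpa using this
    have h5' : HasDerivAt q (a / (3 * p ^ 2)) (z + 0 * p) := by
      rw [zero_mul, add_zero]; exact h5
    have h6 := (h5'.comp 0 h3).const_mul p
    refine h6.congr_deriv ?_
    field_simp

/-- second-order inequality at a point where `u - φ` has a local maximum -/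
theorem second_order_bound (α β : Fin d → ℝ) (f : Fin d → ℝ → ℝ) (a b : Fin d → ℝ)
    (hS : ∀ i, ∀ t ∈ Ioo (α i) (β i),
      DifferentiableAt ℝ (f i) t ∧ deriv (f i) t ^ 3 = a i * t + b i)
    (φ : EuclideanSpace ℝ (Fin d) → ℝ) (z : EuclideanSpace ℝ (Fin d)) (hz : z ∈ box α β)
    (hφ : ContDiffAt ℝ 2 φ z) (hmax : IsLocalMax (fun x => sepFun f x - φ x) z) :
    ∑ i, (if deriv (f i) (z i) = 0 then 0 else a i / 3) ≤ infLaplacian φ z := by
  classical
  let p : Fin d → ℝ := fun i => deriv (f i) (z i)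
  have hp : ∀ j, partialDeriv j φ z = p j := fun j =>
    partialDeriv_eq_of_isLocalMax f φ z (fun i => (hS i (z i) (hz i)).1)
      (hφ.differentiableAt (by norm_num)) hmax j
  let P : EuclideanSpace ℝ (Fin d) := WithLp.toLp 2 p
  have hP : ∀ i, P i = p i := fun i => rfl
  let γ : ℝ → EuclideanSpace ℝ (Fin d) := fun s => z + s • P
  have hγ0 : γ 0 = z := by simp [γ]
  have hγc : ContinuousAt γ 0 := by
    have : Continuous γ := by simp only [γ]; fun_prop
    exact this.continuousAt
  let w : ℝ → ℝ := fun s => sepFun f (γ s) - φ (γ s)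
  have hwmax : IsLocalMax w 0 := by
    have h1 : ∀ᶠ y in 𝓝 (γ 0), sepFun f y - φ y ≤ sepFun f z - φ z := by
      rw [hγ0]; exact hmax
    have h2 := hγc.eventually h1
    filter_upwards [h2] with s hs
    show sepFun f (γ s) - φ (γ s) ≤ sepFun f (γ 0) - φ (γ 0)
    rw [hγ0]; exact hs
  have hin : ∀ᶠ s in 𝓝 (0 : ℝ), ∀ i, z i + s * p i ∈ Ioo (α i) (β i) := by
    rw [Filter.eventually_all]
    intro i
    have hc : ContinuousAt (fun s : ℝ => z i + s * p i) 0 := by fun_prop
    have h1 : Ioo (α i) (β i) ∈ 𝓝 (z i + 0 * p i) := by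
      rw [zero_mul, add_zero]; exact Ioo_mem_nhds (hz i).1 (hz i).2
    exact hc.eventually_mem h1
  have hdφ : ∀ᶠ s in 𝓝 (0 : ℝ), DifferentiableAt ℝ φ (γ s) := by
    have h1 : ∀ᶠ y in 𝓝 (γ 0), DifferentiableAt ℝ φ y := by
      rw [hγ0]; exact contDiffAt_differentiable_near φ z hφ
    exact hγc.eventually h1
  have hw1 : ∀ᶠ s in 𝓝 (0 : ℝ), HasDerivAt w
      (∑ i, p i * deriv (f i) (z i + s * p i) - ∑ j, p j * partialDeriv j φ (γ s)) s := by
    filter_upwards [hin, hdφ] with s hs1 hs2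
    have h1 : HasDerivAt (fun s => sepFun f (γ s))
        (∑ i, p i * deriv (f i) (z i + s * p i)) s := by
      have e : (fun s => sepFun f (γ s)) = fun s => ∑ i, f i (z i + s * p i) := by
        funext r; exact sepFun_line f z P r
      rw [e]
      apply HasDerivAt.fun_sum
      intro i _
      have h3 : HasDerivAt (fun r : ℝ => z i + r * p i) (p i) s := by
        have := ((hasDerivAt_id s).mul_const (p i)).const_add (z i)
        simpa using this
      have h4 := (hS i _ (hs1 i)).1.hasDerivAt.comp s h3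
      exact h4.congr_deriv (by ring)
    have h2 : HasDerivAt (fun s => φ (γ s)) (∑ j, p j * partialDeriv j φ (γ s)) s :=
      hasDerivAt_line φ z P s hs2
    exact h1.sub h2
  have hA : HasDerivAt (fun s : ℝ => ∑ i, p i * deriv (f i) (z i + s * p i))
      (∑ i, (if p i = 0 then 0 else a i / 3)) 0 := by
    apply HasDerivAt.fun_sum
    intro i _
    have hq : ∀ᶠ t in 𝓝 (z i), deriv (f i) t ^ 3 = a i * t + b i := by
      filter_upwards [Ioo_mem_nhds (hz i).1 (hz i).2] with t ht
      exact (hS i t ht).2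
    exact hasDerivAt_branch hq rfl
  have hB : HasDerivAt (fun s : ℝ => ∑ j, p j * partialDeriv j φ (γ s))
      (∑ j, p j * ∑ i, p i * partialDeriv i (partialDeriv j φ) z) 0 := by
    apply HasDerivAt.fun_sum
    intro j _
    have hψ : DifferentiableAt ℝ (partialDeriv j φ) (z + (0 : ℝ) • P) := by
      simpa using partialDeriv_differentiableAt φ z hφ j
    have h1 := hasDerivAt_line (partialDeriv j φ) z P 0 hψ
    have e0 : z + (0 : ℝ) • P = z := by simp
    rw [e0] at h1
    exact h1.const_mul (p j)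
  have hw2 := hA.sub hB
  have hfin := second_deriv_nonpos_of_isLocalMax hw1 hw2 hwmax
  have hL : infLaplacian φ z = ∑ j, p j * ∑ i, p i * partialDeriv i (partialDeriv j φ) z := by
    unfold infLaplacian
    rw [Finset.sum_comm]
    apply Finset.sum_congr rfl
    intro j _
    rw [Finset.mul_sum]
    apply Finset.sum_congr rfl
    intro i _
    rw [hp i, hp j]; ring
  rw [hL]
  linarith

theorem partialDeriv_neg (F : EuclideanSpace ℝ (Fin d) → ℝ) (i : Fin d) :
    partialDeriv i (fun x => -F x) = fun x => -partialDeriv i F x := by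
  funext x
  unfold partialDeriv
  rw [fderiv_fun_neg]
  simp

theorem infLaplacian_neg (φ : EuclideanSpace ℝ (Fin d) → ℝ) (z : EuclideanSpace ℝ (Fin d)) :
    infLaplacian (fun x => -φ x) z = -infLaplacian φ z := by
  unfold infLaplacian
  simp only [partialDeriv_neg]
  rw [← Finset.sum_neg_distrib]
  apply Finset.sum_congr rfl
  intro i _
  rw [← Finset.sum_neg_distrib]
  apply Finset.sum_congr rfl
  intro j _
  ring

/-- sufficiency, the subsolution half -/
theorem sep_converse_max (α β : Fin d → ℝ) (f : Fin d → ℝ → ℝ) (a b : Fin d → ℝ)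
    (ha : ∑ i, a i = 0)
    (hS : ∀ i, ∀ t ∈ Ioo (α i) (β i),
      DifferentiableAt ℝ (f i) t ∧ deriv (f i) t ^ 3 = a i * t + b i)
    (φ : EuclideanSpace ℝ (Fin d) → ℝ) (z : EuclideanSpace ℝ (Fin d)) (hz : z ∈ box α β)
    (hφ : ContDiffAt ℝ 2 φ z) (hmax : IsLocalMax (fun x => sepFun f x - φ x) z) :
    0 ≤ infLaplacian φ z := by
  have h1 := second_order_bound α β f a b hS φ z hz hφ hmax
  have h2 : ∑ i, a i / 3 ≤ ∑ i, (if deriv (f i) (z i) = 0 then 0 else a i / 3) := by
    apply Finset.sum_le_sum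
    intro i _
    by_cases h : deriv (f i) (z i) = 0
    · rw [if_pos h]
      have := zero_slope_nonpos α β f a b hS φ z hz hφ hmax i h
      linarith
    · rw [if_neg h]
  have h3 : ∑ i, a i / 3 = 0 := by rw [← Finset.sum_div, ha, zero_div]
  linarith

/-- sufficiency, the supersolution half -/
theorem sep_converse_min (α β : Fin d → ℝ) (f : Fin d → ℝ → ℝ) (a b : Fin d → ℝ)
    (ha : ∑ i, a i = 0)
    (hS : ∀ i, ∀ t ∈ Ioo (α i) (β i),
      DifferentiableAt ℝ (f i) t ∧ deriv (f i) t ^ 3 = a i * t + b i)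
    (φ : EuclideanSpace ℝ (Fin d) → ℝ) (z : EuclideanSpace ℝ (Fin d)) (hz : z ∈ box α β)
    (hφ : ContDiffAt ℝ 2 φ z) (hmin : IsLocalMin (fun x => sepFun f x - φ x) z) :
    infLaplacian φ z ≤ 0 := by
  have hS' : ∀ i, ∀ t ∈ Ioo (α i) (β i),
      DifferentiableAt ℝ (fun s => -f i s) t ∧
        deriv (fun s => -f i s) t ^ 3 = (-a i) * t + (-b i) := by
    intro i t ht
    refine ⟨(hS i t ht).1.fun_neg, ?_⟩
    have e : deriv (fun s => -f i s) t = -deriv (f i) t := deriv.fun_neg
    rw [e]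
    have := (hS i t ht).2
    have e2 : (-deriv (f i) t) ^ 3 = -(deriv (f i) t ^ 3) := by ring
    rw [e2, this]; ring
  have hmax : IsLocalMax (fun x => sepFun (fun i s => -f i s) x - (fun x => -φ x) x) z := by
    have := hmin.neg
    have e : (fun x => sepFun (fun i s => -f i s) x - (fun x => -φ x) x) =
        fun x => -(sepFun f x - φ x) := by
      funext x
      unfold sepFun
      rw [Finset.sum_neg_distrib]; ring
    rw [e]; exact this
  have h := sep_converse_max α β (fun i s => -f i s) (fun i => -a i) (fun i => -b i)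
    (by rw [Finset.sum_neg_distrib, ha, neg_zero]) hS' (fun x => -φ x) z hz hφ.neg hmax
  rw [infLaplacian_neg] at h
  linarith

theorem sep_continuousOn_of (α β : Fin d → ℝ) (f : Fin d → ℝ → ℝ)
    (hd : ∀ i, ∀ t ∈ Ioo (α i) (β i), DifferentiableAt ℝ (f i) t) :
    ContinuousOn (sepFun f) (box α β) := by
  unfold sepFun
  apply continuousOn_finset_sum
  intro i _
  have h1 : ContinuousOn (f i) (Ioo (α i) (β i)) :=
    fun t ht => (hd i t ht).continuousAt.continuousWithinAt
  have h2 : ContinuousOn (fun x : EuclideanSpace ℝ (Fin d) => x i) (box α β) := by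
    apply Continuous.continuousOn
    fun_prop
  exact h1.comp h2 (fun x hx => hx i)

/-- **Classification, sufficiency** -/
theorem sep_converse (α β : Fin d → ℝ) (f : Fin d → ℝ → ℝ) (a b : Fin d → ℝ)
    (ha : ∑ i, a i = 0)
    (hS : ∀ i, ∀ t ∈ Ioo (α i) (β i),
      DifferentiableAt ℝ (f i) t ∧ deriv (f i) t ^ 3 = a i * t + b i) :
    IsInfHarmonicLocOn (sepFun f) (box α β) :=
  ⟨sep_continuousOn_of α β f (fun i t ht => (hS i t ht).1), fun φ z hz hφ =>
    ⟨sep_converse_max α β f a b ha hS φ z hz hφ, sep_converse_min α β f a b ha hS φ z hz hφ⟩⟩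

/-- **Classification of additively separable infinity-harmonic functions on a box** -/
theorem sep_iff (α β : Fin d → ℝ) (hαβ : ∀ i, α i < β i) (f : Fin d → ℝ → ℝ) :
    (IsInfHarmonicOn (sepFun f) (box α β) ↔
      ∃ a b : Fin d → ℝ, ∑ i, a i = 0 ∧ ∀ i, ∀ t ∈ Ioo (α i) (β i),
        DifferentiableAt ℝ (f i) t ∧ deriv (f i) t ^ 3 = a i * t + b i) ∧
    (IsInfHarmonicLocOn (sepFun f) (box α β) ↔
      ∃ a b : Fin d → ℝ, ∑ i, a i = 0 ∧ ∀ i, ∀ t ∈ Ioo (α i) (β i),
        DifferentiableAt ℝ (f i) t ∧ deriv (f i) t ^ 3 = a i * t + b i) := by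
  refine ⟨⟨fun hu => sep_classify α β hαβ f hu, ?_⟩, ⟨fun hu => sep_classify α β hαβ f
    hu.isInfHarmonicOn, ?_⟩⟩
  · rintro ⟨a, b, ha, hS⟩
    exact (sep_converse α β f a b ha hS).isInfHarmonicOn
  · rintro ⟨a, b, ha, hS⟩
    exact sep_converse α β f a b ha hS

end Vale.Agent.Lib.P080
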