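import Mathlib

namespace Vale.Agent.Lib.P080

/-- The `i`-th partial derivative of `φ` at `z`. -/
noncomputable def partialDeriv {d : ℕ} (i : Fin d) (φ : EuclideanSpace ℝ (Fin d) → ℝ)
    (z : EuclideanSpace ℝ (Fin d)) : ℝ :=
  fderiv ℝ φ z (EuclideanSpace.single i (1 : ℝ))

/-- The infinity Laplacian `Σ_{i,j} φ_i φ_j φ_{ij}` of `φ` at `z`. -/
noncomputable def infLaplacian {d : ℕ} (φ : EuclideanSpace ℝ (Fin d) → ℝ)
    (z : EuclideanSpace ℝ (Fin d)) : ℝ :=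
  ∑ i : Fin d, ∑ j : Fin d,
    partialDeriv i φ z * partialDeriv j φ z * partialDeriv i (partialDeriv j φ) z

/-- `u` is infinity-harmonic on `Ω` in the viscosity sense: `u` is continuous on `Ω`, and for every
test function `φ` of class `C^2` and every `z ∈ Ω`, if `u - φ` has a local maximum at `z` then
`Δ_∞ φ (z) ≥ 0`, and if `u - φ` has a local minimum at `z` then `Δ_∞ φ (z) ≤ 0`. -/
def IsInfHarmonicOn {d : ℕ} (u : EuclideanSpace ℝ (Fin d) → ℝ)
    (Ω : Set (EuclideanSpace ℝ (Fin d))) : Prop :=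
  ContinuousOn u Ω ∧
    ∀ φ : EuclideanSpace ℝ (Fin d) → ℝ, ContDiff ℝ 2 φ → ∀ z ∈ Ω,
      (IsLocalMax (fun x => u x - φ x) z → 0 ≤ infLaplacian φ z) ∧
      (IsLocalMin (fun x => u x - φ x) z → infLaplacian φ z ≤ 0)

end Vale.Agent.Lib.P080
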