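import Vale.Agent.Lib.P080.OneDReg

namespace Vale.Agent.Lib.P080

open Set Filter Topology

/-- a continuous function on an interval is touched from above by some parabola -/
theorem exists_jet_max {g : ℝ → ℝ} {α β : ℝ} (hαβ : α < β) (hg : ContinuousOn g (Ioo α β)) :
    ∃ t, α < t ∧ t < β ∧ ∃ c p X : ℝ, IsLocalMax (fun s => g s - parab t c p X s) t := by
  set a : ℝ := (2 * α + β) / 3 with ha
  set b : ℝ := (α + 2 * β) / 3 with hb
  set t0 : ℝ := (α + β) / 2 with ht0
  have hab : a < b := by rw [ha, hb]; linarith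
  have hsub : Icc a b ⊆ Ioo α β := by
    intro y hy
    rw [ha, hb] at hy
    exact ⟨by linarith [hy.1], by linarith [hy.2]⟩
  have hgc : ContinuousOn g (Icc a b) := hg.mono hsub
  obtain ⟨M, hM⟩ : ∃ M : ℝ, ∀ y ∈ Icc a b, |g y| ≤ M := by
    obtain ⟨y0, -, hy0⟩ := isCompact_Icc.exists_isMaxOn (nonempty_Icc.mpr hab.le) hgc.abs
    exact ⟨|g y0|, fun y hy => hy0 hy⟩
  have hM0 : 0 ≤ M := (abs_nonneg _).trans (hM a (left_mem_Icc.mpr hab.le))
  set K : ℝ := (2 * M + 2) / ((b - a) / 2) ^ 2 with hK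
  have hba : 0 < (b - a) / 2 := by linarith
  have hKe : K * ((b - a) / 2) ^ 2 = 2 * M + 2 := by
    rw [hK]
    exact div_mul_cancel₀ _ (ne_of_gt (by positivity))
  let w : ℝ → ℝ := fun y => g y - K * (y - t0) ^ 2
  have hwc : ContinuousOn w (Icc a b) := by
    apply hgc.sub
    exact (by fun_prop : Continuous fun y : ℝ => K * (y - t0) ^ 2).continuousOn
  obtain ⟨t1, ht1mem, ht1max⟩ := isCompact_Icc.exists_isMaxOn (nonempty_Icc.mpr hab.le) hwc
  have ht0mem : t0 ∈ Icc a b := by
    rw [ha, hb, ht0]; constructor <;> linarith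
  have hw0 : -M ≤ w t0 := by
    simp only [w, sub_self]
    have := hM t0 ht0mem
    have := abs_le.mp this
    nlinarith [this.1]
  have hwa : w a < -M := by
    simp only [w]
    have e : (a - t0) ^ 2 = ((b - a) / 2) ^ 2 := by rw [ha, hb, ht0]; ring
    rw [e, hKe]
    have := abs_le.mp (hM a (left_mem_Icc.mpr hab.le))
    linarith [this.2]
  have hwb : w b < -M := by
    simp only [w]
    have e : (b - t0) ^ 2 = ((b - a) / 2) ^ 2 := by rw [ha, hb, ht0]; ring
    rw [e, hKe]
    have := abs_le.mp (hM b (right_mem_Icc.mpr hab.le))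
    linarith [this.2]
  have h1 : w t0 ≤ w t1 := ht1max ht0mem
  have hat1 : a < t1 := by
    rcases eq_or_lt_of_le ht1mem.1 with h | h
    · rw [← h] at h1; linarith
    · exact h
  have ht1b : t1 < b := by
    rcases eq_or_lt_of_le ht1mem.2 with h | h
    · rw [h] at h1; linarith
    · exact h
  have hloc : IsLocalMax w t1 :=
    Filter.eventually_of_mem (Icc_mem_nhds hat1 ht1b) (fun y hy => ht1max hy)
  have ht1 := hsub ht1mem
  refine ⟨t1, ht1.1, ht1.2, K * (t1 - t0) ^ 2, 2 * K * (t1 - t0), 2 * K, ?_⟩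
  have heq : (fun s => g s - parab t1 (K * (t1 - t0) ^ 2) (2 * K * (t1 - t0)) (2 * K) s) = w := by
    funext y
    simp only [parab, w]; ring
  rw [heq]; exact hloc

/-- a continuous function on an interval is touched from below by some parabola -/
theorem exists_jet_min {g : ℝ → ℝ} {α β : ℝ} (hαβ : α < β) (hg : ContinuousOn g (Ioo α β)) :
    ∃ t, α < t ∧ t < β ∧ ∃ c p X : ℝ, IsLocalMin (fun s => g s - parab t c p X s) t := by
  have hg' : ContinuousOn (fun s => -g s) (Ioo α β) := hg.neg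
  obtain ⟨t, h1, h2, c, p, X, hmax⟩ := exists_jet_max hαβ hg'
  refine ⟨t, h1, h2, -c, -p, -X, ?_⟩
  have := hmax.neg
  have heq : (fun s => g s - parab t (-c) (-p) (-X) s) =
      fun s => -(-g s - parab t c p X s) := by
    funext s
    simp only [parab]; ring
  rw [heq]; exact this

end Vale.Agent.Lib.P080
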