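import Vale.Agent.Lib.P080.Separable

namespace Vale.Agent.Lib.P080

open Set Filter Topology

variable {d : ℕ}

/-- the open box -/
def box (α β : Fin d → ℝ) : Set (EuclideanSpace ℝ (Fin d)) := {x | ∀ i, α i < x i ∧ x i < β i}

/-- the separable function -/
def sepFun (f : Fin d → ℝ → ℝ) (x : EuclideanSpace ℝ (Fin d)) : ℝ := ∑ i, f i (x i)

theorem sep_continuousOn (α β : Fin d → ℝ) (f : Fin d → ℝ → ℝ)
    (hu : ContinuousOn (sepFun f) (box α β)) (z0 : EuclideanSpace ℝ (Fin d)) (hz0 : z0 ∈ box α β)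
    (i : Fin d) : ContinuousOn (f i) (Ioo (α i) (β i)) := by
  classical
  let L : ℝ → EuclideanSpace ℝ (Fin d) := fun t => z0 + (t - z0 i) • EuclideanSpace.single i (1 : ℝ)
  have hLi : ∀ t, (L t) i = t := by
    intro t
    simp [L]
  have hLj : ∀ t j, j ≠ i → (L t) j = z0 j := by
    intro t j hj
    simp [L, hj]
  have hLc : Continuous L := by
    simp only [L]; fun_prop
  have hmaps : MapsTo L (Ioo (α i) (β i)) (box α β) := by
    intro t ht j
    by_cases hj : j = i
    · subst hj; rw [hLi]; exact ht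
    · rw [hLj t j hj]; exact hz0 j
  have heq : f i = fun t => sepFun f (L t) - ∑ j ∈ Finset.univ.erase i, f j (z0 j) := by
    funext t
    unfold sepFun
    rw [← Finset.add_sum_erase Finset.univ (fun j => f j ((L t) j)) (Finset.mem_univ i), hLi]
    have : ∑ j ∈ Finset.univ.erase i, f j ((L t) j) = ∑ j ∈ Finset.univ.erase i, f j (z0 j) := by
      apply Finset.sum_congr rfl
      intro j hj
      rw [hLj t j (Finset.ne_of_mem_erase hj)]
    rw [this]; ring
  rw [heq]
  exact (hu.comp hLc.continuousOn hmaps).sub continuousOn_const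

theorem sep_sup1 (α β : Fin d → ℝ) (f : Fin d → ℝ → ℝ)
    (hu : IsInfHarmonicOn (sepFun f) (box α β))
    (tm cm pm Xm : Fin d → ℝ) (htm : ∀ j, α j < tm j ∧ tm j < β j)
    (hm : ∀ j, IsLocalMin (fun s => f j s - parab (tm j) (cm j) (pm j) (Xm j) s) (tm j))
    (A : ℝ) (hA : ∑ j, |pm j ^ 2 * Xm j| < A) (i : Fin d) :
    Sup1 (f i) (α i) (β i) A := by
  classical
  intro t ht1 ht2 c p X hloc
  let t' := Function.update tm i t
  let c' := Function.update cm i c
  let p' := Function.update pm i p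
  let X' := Function.update Xm i X
  have hall : ∀ j, IsLocalMin (fun s => f j s - parab (t' j) (c' j) (p' j) (X' j) s) (t' j) := by
    intro j
    by_cases hj : j = i
    · subst hj
      simp only [t', c', p', X', Function.update_self]
      exact hloc
    · simp only [t', c', p', X', Function.update_of_ne hj]
      exact hm j
  have hz : (WithLp.toLp 2 t' : EuclideanSpace ℝ (Fin d)) ∈ box α β := by
    intro j
    show α j < t' j ∧ t' j < β j
    by_cases hj : j = i
    · subst hj
      simp only [t', Function.update_self]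
      exact ⟨ht1, ht2⟩
    · simp only [t', Function.update_of_ne hj]
      exact htm j
  have h1 := (hu.2 (sepTest t' c' p' X') (sepTest_contDiff t' c' p' X') _ hz).2
    (sep_isLocalMin f t' c' p' X' hall)
  rw [infLaplacian_sepTest] at h1
  rw [← Finset.add_sum_erase Finset.univ (fun j => p' j ^ 2 * X' j) (Finset.mem_univ i)] at h1
  have h2 : ∑ j ∈ Finset.univ.erase i, p' j ^ 2 * X' j =
      ∑ j ∈ Finset.univ.erase i, pm j ^ 2 * Xm j := by
    apply Finset.sum_congr rfl
    intro j hj
    simp only [p', X', Function.update_of_ne (Finset.ne_of_mem_erase hj)]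
  rw [h2] at h1
  simp only [p', X', Function.update_self] at h1
  have h3 : -(∑ j ∈ Finset.univ.erase i, pm j ^ 2 * Xm j) ≤
      ∑ j ∈ Finset.univ.erase i, |pm j ^ 2 * Xm j| := by
    rw [← Finset.sum_neg_distrib]
    exact Finset.sum_le_sum (fun j _ => neg_le_abs _)
  have h4 : ∑ j ∈ Finset.univ.erase i, |pm j ^ 2 * Xm j| ≤ ∑ j, |pm j ^ 2 * Xm j| :=
    Finset.sum_le_sum_of_subset_of_nonneg (Finset.erase_subset _ _) (fun j _ _ => abs_nonneg _)
  linarith

theorem sep_sup1_neg (α β : Fin d → ℝ) (f : Fin d → ℝ → ℝ)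
    (hu : IsInfHarmonicOn (sepFun f) (box α β))
    (tM cM pM XM : Fin d → ℝ) (htM : ∀ j, α j < tM j ∧ tM j < β j)
    (hM : ∀ j, IsLocalMax (fun s => f j s - parab (tM j) (cM j) (pM j) (XM j) s) (tM j))
    (A : ℝ) (hA : ∑ j, |pM j ^ 2 * XM j| < A) (i : Fin d) :
    Sup1 (fun s => -f i s) (α i) (β i) A := by
  classical
  intro t ht1 ht2 c p X hloc
  have hloc' : IsLocalMax (fun s => f i s - parab t (-c) (-p) (-X) s) t := by
    have := hloc.neg
    have heq : (fun s => f i s - parab t (-c) (-p) (-X) s) =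
        fun s => -(-f i s - parab t c p X s) := by
      funext s
      simp only [parab]; ring
    rw [heq]; exact this
  let t' := Function.update tM i t
  let c' := Function.update cM i (-c)
  let p' := Function.update pM i (-p)
  let X' := Function.update XM i (-X)
  have hall : ∀ j, IsLocalMax (fun s => f j s - parab (t' j) (c' j) (p' j) (X' j) s) (t' j) := by
    intro j
    by_cases hj : j = i
    · subst hj
      simp only [t', c', p', X', Function.update_self]
      exact hloc'
    · simp only [t', c', p', X', Function.update_of_ne hj]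
      exact hM j
  have hz : (WithLp.toLp 2 t' : EuclideanSpace ℝ (Fin d)) ∈ box α β := by
    intro j
    show α j < t' j ∧ t' j < β j
    by_cases hj : j = i
    · subst hj
      simp only [t', Function.update_self]
      exact ⟨ht1, ht2⟩
    · simp only [t', Function.update_of_ne hj]
      exact htM j
  have h1 := (hu.2 (sepTest t' c' p' X') (sepTest_contDiff t' c' p' X') _ hz).1
    (sep_isLocalMax f t' c' p' X' hall)
  rw [infLaplacian_sepTest] at h1
  rw [← Finset.add_sum_erase Finset.univ (fun j => p' j ^ 2 * X' j) (Finset.mem_univ i)] at h1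
  have h2 : ∑ j ∈ Finset.univ.erase i, p' j ^ 2 * X' j =
      ∑ j ∈ Finset.univ.erase i, pM j ^ 2 * XM j := by
    apply Finset.sum_congr rfl
    intro j hj
    simp only [p', X', Function.update_of_ne (Finset.ne_of_mem_erase hj)]
  rw [h2] at h1
  simp only [p', X', Function.update_self] at h1
  have h3 : ∑ j ∈ Finset.univ.erase i, pM j ^ 2 * XM j ≤
      ∑ j ∈ Finset.univ.erase i, |pM j ^ 2 * XM j| :=
    Finset.sum_le_sum (fun j _ => le_abs_self _)
  have h4 : ∑ j ∈ Finset.univ.erase i, |pM j ^ 2 * XM j| ≤ ∑ j, |pM j ^ 2 * XM j| :=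
    Finset.sum_le_sum_of_subset_of_nonneg (Finset.erase_subset _ _) (fun j _ _ => abs_nonneg _)
  have h5 : (-p) ^ 2 * (-X) = -(p ^ 2 * X) := by ring
  rw [h5] at h1
  linarith

/-- the one-dimensional pieces of a separable infinity-harmonic function satisfy the
one-dimensional inequalities with a common constant -/
theorem sep_exists_A (α β : Fin d → ℝ) (f : Fin d → ℝ → ℝ)
    (hu : IsInfHarmonicOn (sepFun f) (box α β)) (z0 : EuclideanSpace ℝ (Fin d))
    (hz0 : z0 ∈ box α β) :
    ∃ A : ℝ, 0 < A ∧ ∀ i, ContinuousOn (f i) (Ioo (α i) (β i)) ∧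
      Sup1 (f i) (α i) (β i) A ∧ Sup1 (fun s => -f i s) (α i) (β i) A := by
  have hc : ∀ i, ContinuousOn (f i) (Ioo (α i) (β i)) :=
    fun i => sep_continuousOn α β f hu.1 z0 hz0 i
  have hαβ : ∀ i, α i < β i := fun i => lt_trans (hz0 i).1 (hz0 i).2
  choose tM htM1 htM2 cM pM XM hM using fun j => exists_jet_max (hαβ j) (hc j)
  choose tm htm1 htm2 cm pm Xm hm using fun j => exists_jet_min (hαβ j) (hc j)
  refine ⟨1 + ∑ j, |pm j ^ 2 * Xm j| + ∑ j, |pM j ^ 2 * XM j|, ?_, ?_⟩
  · have h1 : 0 ≤ ∑ j, |pm j ^ 2 * Xm j| := Finset.sum_nonneg (fun j _ => abs_nonneg _)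
    have h2 : 0 ≤ ∑ j, |pM j ^ 2 * XM j| := Finset.sum_nonneg (fun j _ => abs_nonneg _)
    linarith
  · intro i
    have h1 : 0 ≤ ∑ j, |pm j ^ 2 * Xm j| := Finset.sum_nonneg (fun j _ => abs_nonneg _)
    have h2 : 0 ≤ ∑ j, |pM j ^ 2 * XM j| := Finset.sum_nonneg (fun j _ => abs_nonneg _)
    refine ⟨hc i, ?_, ?_⟩
    · exact sep_sup1 α β f hu tm cm pm Xm (fun j => ⟨htm1 j, htm2 j⟩) hm _ (by linarith) i
    · exact sep_sup1_neg α β f hu tM cM pM XM (fun j => ⟨htM1 j, htM2 j⟩) hM _ (by linarith) i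

/-- an additively separable infinity-harmonic function on a box is continuously differentiable -/
theorem sep_contDiffOn (α β : Fin d → ℝ) (f : Fin d → ℝ → ℝ)
    (hu : IsInfHarmonicOn (sepFun f) (box α β)) : ContDiffOn ℝ 1 (sepFun f) (box α β) := by
  rcases (box α β).eq_empty_or_nonempty with hempty | ⟨z0, hz0⟩
  · rw [hempty]; exact contDiffOn_empty
  obtain ⟨A, hA, h⟩ := sep_exists_A α β f hu z0 hz0
  unfold sepFun
  apply ContDiffOn.sum
  intro i _
  have h1 : ContDiffOn ℝ 1 (f i) (Ioo (α i) (β i)) :=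
    oneD_contDiffOn hA (h i).1 (h i).2.1 (h i).2.2
  have h2 : ContDiffOn ℝ 1 (fun x : EuclideanSpace ℝ (Fin d) => x i) (box α β) := by
    apply ContDiff.contDiffOn
    fun_prop
  exact h1.comp h2 (fun x hx => hx i)

end Vale.Agent.Lib.P080
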