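import Mathlib

namespace Vale.Agent.Lib.P080

open Set Filter Topology

/-- the parabola with value `c`, slope `p` and second derivative `X` at the point `t` -/
noncomputable def parab (t c p X : ℝ) (s : ℝ) : ℝ := c + p * (s - t) + X / 2 * (s - t) ^ 2

/-- one-dimensional supersolution property tested with parabolas, with the strict bound `A` -/
def Sup1 (g : ℝ → ℝ) (α β A : ℝ) : Prop :=
  ∀ t, α < t → t < β → ∀ c p X : ℝ,
    IsLocalMin (fun s => g s - parab t c p X s) t → p ^ 2 * X < A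

theorem barrier_lower {g : ℝ → ℝ} {α β A : ℝ} (hA : 0 < A) (hg : ContinuousOn g (Ioo α β))
    (hsup : Sup1 g α β A) {s t : ℝ} (hαs : α < s) (hst : s < t) (htβ : t < β) (m : ℝ)
    (hm : m * (t - s) = g t - g s) (hlarge : 4 * A * (t - s) ≤ |m| ^ 3) (x : ℝ)
    (hx : x ∈ Icc s t) :
    m ^ 2 * (g s + m * (x - s) - g x) ≤ 2 * A * (x - s) * (t - x) := by
  have hh : 0 < t - s := sub_pos.mpr hst
  have hm3 : 0 < |m| ^ 3 := lt_of_lt_of_le (by positivity) hlarge
  have hm0 : m ≠ 0 := by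
    intro h0
    rw [h0, abs_zero] at hm3
    norm_num at hm3
  have hm2 : 0 < m ^ 2 := by positivity
  have habs : 0 < |m| := abs_pos.mpr hm0
  by_contra hcon
  rw [not_le] at hcon
  set K : ℝ := 4 * A / m ^ 2 with hKdef
  have hK : K * m ^ 2 = 4 * A := by
    rw [hKdef]; field_simp
  have hKpos : 0 < K := by
    rw [hKdef]; positivity
  let P : ℝ → ℝ := fun y => g s + m * (y - s) + K / 2 * (y - s) * (y - t)
  let w : ℝ → ℝ := fun y => g y - P y
  have hwx : w x < 0 := by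
    have h1 : m ^ 2 * (P x - g x) =
        m ^ 2 * (g s + m * (x - s) - g x) - (K * m ^ 2) / 2 * (x - s) * (t - x) := by
      simp only [P]; ring
    rw [hK] at h1
    have h2 : 0 < m ^ 2 * (P x - g x) := by rw [h1]; linarith
    have h3 : 0 < P x - g x := pos_of_mul_pos_right h2 hm2.le
    simp only [w]; linarith
  have hsub : Icc s t ⊆ Ioo α β := fun y hy => ⟨lt_of_lt_of_le hαs hy.1, lt_of_le_of_lt hy.2 htβ⟩
  have hPc : Continuous P := by
    simp only [P]; fun_prop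
  have hwc : ContinuousOn w (Icc s t) := (hg.mono hsub).sub hPc.continuousOn
  obtain ⟨x1, hx1mem, hx1min⟩ := isCompact_Icc.exists_isMinOn (nonempty_Icc.mpr hst.le) hwc
  have hw1 : w x1 < 0 := lt_of_le_of_lt (hx1min hx) hwx
  have hws : w s = 0 := by simp only [w, P]; ring
  have hwt : w t = 0 := by
    simp only [w, P]
    have : g t - (g s + m * (t - s) + K / 2 * (t - s) * (t - t)) = g t - g s - m * (t - s) := by ring
    rw [this, hm]; ring
  have hs1 : s < x1 := by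
    rcases eq_or_lt_of_le hx1mem.1 with h | h
    · rw [← h, hws] at hw1; exact absurd hw1 (lt_irrefl _)
    · exact h
  have h1t : x1 < t := by
    rcases eq_or_lt_of_le hx1mem.2 with h | h
    · rw [h, hwt] at hw1; exact absurd hw1 (lt_irrefl _)
    · exact h
  have hloc : IsLocalMin w x1 :=
    Filter.eventually_of_mem (Icc_mem_nhds hs1 h1t) (fun y hy => hx1min hy)
  have heq : (fun y => g y - parab x1 (P x1) (m + K / 2 * (2 * x1 - s - t)) K y) = w := by
    funext y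
    simp only [parab, w, P]; ring
  have hlt := hsup x1 (lt_trans hαs hs1) (lt_trans h1t htβ) (P x1) (m + K / 2 * (2 * x1 - s - t)) K
    (by rw [heq]; exact hloc)
  -- the slope of the barrier stays large
  have hKh : K * (t - s) ≤ |m| := by
    have h1 : K * (t - s) * m ^ 2 ≤ |m| * m ^ 2 := by
      have e1 : K * (t - s) * m ^ 2 = 4 * A * (t - s) := by rw [← hK]; ring
      have e2 : |m| * m ^ 2 = |m| ^ 3 := by rw [← sq_abs m]; ring
      rw [e1, e2]; exact hlarge
    exact le_of_mul_le_mul_right h1 hm2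
  have hd : |K / 2 * (2 * x1 - s - t)| ≤ |m| / 2 := by
    rw [abs_mul, abs_of_pos (by positivity : (0 : ℝ) < K / 2)]
    have h2 : |2 * x1 - s - t| ≤ t - s := by
      rw [abs_le]; constructor <;> linarith
    have h3 : K / 2 * |2 * x1 - s - t| ≤ K / 2 * (t - s) :=
      mul_le_mul_of_nonneg_left h2 (by positivity)
    linarith
  have hp : |m| / 2 ≤ |m + K / 2 * (2 * x1 - s - t)| := by
    have h4 := abs_sub_abs_le_abs_sub m (m + K / 2 * (2 * x1 - s - t))
    have h5 : |m - (m + K / 2 * (2 * x1 - s - t))| = |K / 2 * (2 * x1 - s - t)| := by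
      rw [show m - (m + K / 2 * (2 * x1 - s - t)) = -(K / 2 * (2 * x1 - s - t)) by ring, abs_neg]
    rw [h5] at h4
    linarith
  have hp2 : m ^ 2 / 4 ≤ (m + K / 2 * (2 * x1 - s - t)) ^ 2 := by
    have h6 : (|m| / 2) ^ 2 ≤ |m + K / 2 * (2 * x1 - s - t)| ^ 2 :=
      pow_le_pow_left₀ (by positivity) hp 2
    rw [sq_abs] at h6
    have h7 : (|m| / 2) ^ 2 = m ^ 2 / 4 := by rw [div_pow, sq_abs]; norm_num
    linarith
  have hfinal : A ≤ (m + K / 2 * (2 * x1 - s - t)) ^ 2 * K := by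
    have h8 : m ^ 2 / 4 * K ≤ (m + K / 2 * (2 * x1 - s - t)) ^ 2 * K :=
      mul_le_mul_of_nonneg_right hp2 hKpos.le
    have h9 : m ^ 2 / 4 * K = A := by rw [show m ^ 2 / 4 * K = (K * m ^ 2) / 4 by ring, hK]; ring
    linarith
  linarith

theorem barrier_abs {g : ℝ → ℝ} {α β A : ℝ} (hA : 0 < A) (hg : ContinuousOn g (Ioo α β))
    (hsup : Sup1 g α β A) (hsup' : Sup1 (fun s => -g s) α β A) {s t : ℝ} (hαs : α < s)
    (hst : s < t) (htβ : t < β) (m : ℝ)
    (hm : m * (t - s) = g t - g s) (hlarge : 4 * A * (t - s) ≤ |m| ^ 3) (x : ℝ)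
    (hx : x ∈ Icc s t) :
    m ^ 2 * |g x - g s - m * (x - s)| ≤ 2 * A * (x - s) * (t - x) := by
  have h1 := barrier_lower hA hg hsup hαs hst htβ m hm hlarge x hx
  have hg' : ContinuousOn (fun s => -g s) (Ioo α β) := hg.neg
  have h2 := barrier_lower (g := fun s => -g s) hA hg' hsup' hαs hst htβ (-m)
    (by linarith) (by rw [abs_neg]; exact hlarge) x hx
  simp only [neg_sq] at h2
  have hm2 : 0 ≤ m ^ 2 := by positivity
  have e : m ^ 2 * |g x - g s - m * (x - s)| = |m ^ 2 * (g x - g s - m * (x - s))| := by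
    rw [abs_mul, abs_of_nonneg hm2]
  rw [e, abs_le]
  constructor
  · linarith
  · linarith

theorem subchord_large {g : ℝ → ℝ} {α β A : ℝ} (hA : 0 < A) (hg : ContinuousOn g (Ioo α β))
    (hsup : Sup1 g α β A) (hsup' : Sup1 (fun s => -g s) α β A) {s t x y : ℝ} (hαs : α < s)
    (hsx : s ≤ x) (hxy : x < y) (hyt : y ≤ t) (htβ : t < β) (m m' : ℝ)
    (hm : m * (t - s) = g t - g s) (hm' : m' * (y - x) = g y - g x)
    (hlarge : 32 * A * (t - s) ≤ |m| ^ 3) :
    m ^ 2 * |m' - m| ≤ 10 * A * (t - s) := by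
  have hst : s < t := lt_of_le_of_lt hsx (lt_of_lt_of_le hxy hyt)
  have hh : 0 < t - s := sub_pos.mpr hst
  have hsy : s < y := lt_of_le_of_lt hsx hxy
  have hys : 0 < y - s := sub_pos.mpr hsy
  have hAh : 0 < A * (t - s) := mul_pos hA hh
  have hm3 : 0 < |m| ^ 3 := lt_of_lt_of_le (by positivity) hlarge
  have hm0 : m ≠ 0 := by
    intro h0
    rw [h0, abs_zero] at hm3
    norm_num at hm3
  have hm2 : 0 < m ^ 2 := by positivity
  have habs : 0 < |m| := abs_pos.mpr hm0
  set m1 : ℝ := (g y - g s) / (y - s) with hm1def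
  have hm1 : m1 * (y - s) = g y - g s := by
    rw [hm1def]; field_simp
  -- first comparison
  have B1 := barrier_abs hA hg hsup hsup' hαs hst htβ m hm (by linarith) y ⟨hsy.le, hyt⟩
  have e1 : g y - g s - m * (y - s) = (m1 - m) * (y - s) := by rw [sub_mul, hm1]
  rw [e1, abs_mul, abs_of_pos hys] at B1
  have C1 : m ^ 2 * |m1 - m| ≤ 2 * A * (t - s) := by
    have h3 : m ^ 2 * |m1 - m| * (y - s) ≤ 2 * A * (t - y) * (y - s) := by nlinarith
    have h4 : m ^ 2 * |m1 - m| ≤ 2 * A * (t - y) := le_of_mul_le_mul_right h3 hys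
    nlinarith
  have hclose : |m1 - m| ≤ |m| / 16 := by
    have h5 : m ^ 2 * |m1 - m| ≤ m ^ 2 * (|m| / 16) := by
      have e2 : m ^ 2 * (|m| / 16) = |m| ^ 3 / 16 := by rw [← sq_abs m]; ring
      rw [e2]; linarith
    exact le_of_mul_le_mul_left h5 hm2
  have hm1abs : |m| / 2 ≤ |m1| := by
    have h6 := abs_sub_abs_le_abs_sub m m1
    rw [abs_sub_comm] at h6
    linarith
  have hm1cube : 4 * A * (y - s) ≤ |m1| ^ 3 := by
    have h7 : (|m| / 2) ^ 3 ≤ |m1| ^ 3 := pow_le_pow_left₀ (by positivity) hm1abs 3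
    have h8 : (|m| / 2) ^ 3 = |m| ^ 3 / 8 := by ring
    have h9 : A * (y - s) ≤ A * (t - s) := mul_le_mul_of_nonneg_left (by linarith) hA.le
    linarith
  -- second comparison
  have B2 := barrier_abs hA hg hsup hsup' hαs hsy (lt_of_le_of_lt hyt htβ) m1 hm1 hm1cube x
    ⟨hsx, hxy.le⟩
  have e3 : g x - g s - m1 * (x - s) = (m1 - m') * (y - x) := by
    have : (m1 - m') * (y - x) = m1 * (y - s) - m1 * (x - s) - m' * (y - x) := by ring
    rw [this, hm1, hm']; ring
  have hyx : 0 < y - x := sub_pos.mpr hxy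
  rw [e3, abs_mul, abs_of_pos hyx] at B2
  have C2 : m1 ^ 2 * |m1 - m'| ≤ 2 * A * (t - s) := by
    have h3 : m1 ^ 2 * |m1 - m'| * (y - x) ≤ 2 * A * (x - s) * (y - x) := by nlinarith
    have h4 : m1 ^ 2 * |m1 - m'| ≤ 2 * A * (x - s) := le_of_mul_le_mul_right h3 hyx
    nlinarith
  have hsq : m ^ 2 ≤ 4 * m1 ^ 2 := by
    have h10 : (|m| / 2) ^ 2 ≤ |m1| ^ 2 := pow_le_pow_left₀ (by positivity) hm1abs 2
    rw [sq_abs, div_pow, sq_abs] at h10
    linarith
  have C3 : m ^ 2 * |m1 - m'| ≤ 8 * A * (t - s) := by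
    have h11 : m ^ 2 * |m1 - m'| ≤ 4 * m1 ^ 2 * |m1 - m'| :=
      mul_le_mul_of_nonneg_right hsq (abs_nonneg _)
    nlinarith
  have htri : |m' - m| ≤ |m1 - m'| + |m1 - m| := by
    have : m' - m = -(m1 - m') + (m1 - m) := by ring
    rw [this]
    exact (abs_add_le _ _).trans (by rw [abs_neg])
  have : m ^ 2 * |m' - m| ≤ m ^ 2 * (|m1 - m'| + |m1 - m|) :=
    mul_le_mul_of_nonneg_left htri hm2.le
  nlinarith

theorem subchord_small_pos {g : ℝ → ℝ} {α β A : ℝ} (hA : 0 < A)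
    (hg : ContinuousOn g (Ioo α β))
    (hsup : Sup1 g α β A) (hsup' : Sup1 (fun s => -g s) α β A) {s t x y : ℝ} (hαs : α < s)
    (hsx : s ≤ x) (hxy : x < y) (hyt : y ≤ t) (htβ : t < β) (m m' : ℝ)
    (hm : m * (t - s) = g t - g s) (hm' : m' * (y - x) = g y - g x)
    (hsmall : |m| ^ 3 < 32 * A * (t - s)) (hpos : 0 < m') : m' ^ 3 ≤ 76 * A * (t - s) := by
  by_contra hcon
  rw [not_le] at hcon
  have hst : s < t := lt_of_le_of_lt hsx (lt_of_lt_of_le hxy hyt)
  have hh : 0 < t - s := sub_pos.mpr hst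
  have hyx : 0 < y - x := sub_pos.mpr hxy
  have hAh : 0 < A * (t - s) := mul_pos hA hh
  let xs : ℝ → ℝ := fun θ => x - θ * (x - s)
  let ys : ℝ → ℝ := fun θ => y + θ * (t - y)
  let σ : ℝ → ℝ := fun θ => (g (ys θ) - g (xs θ)) / (ys θ - xs θ)
  have hxs : ∀ θ ∈ Icc (0 : ℝ) 1, s ≤ xs θ ∧ xs θ ≤ x := by
    intro θ hθ
    simp only [xs]
    have h1 : 0 ≤ θ * (x - s) := mul_nonneg hθ.1 (by linarith)
    have h2 : θ * (x - s) ≤ 1 * (x - s) := mul_le_mul_of_nonneg_right hθ.2 (by linarith)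
    constructor <;> linarith
  have hys : ∀ θ ∈ Icc (0 : ℝ) 1, y ≤ ys θ ∧ ys θ ≤ t := by
    intro θ hθ
    simp only [ys]
    have h1 : 0 ≤ θ * (t - y) := mul_nonneg hθ.1 (by linarith)
    have h2 : θ * (t - y) ≤ 1 * (t - y) := mul_le_mul_of_nonneg_right hθ.2 (by linarith)
    constructor <;> linarith
  have hden : ∀ θ ∈ Icc (0 : ℝ) 1, ys θ - xs θ ≠ 0 := by
    intro θ hθ
    have := hxs θ hθ
    have := hys θ hθ
    exact ne_of_gt (by linarith)
  have hxsc : Continuous xs := by simp only [xs]; fun_prop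
  have hysc : Continuous ys := by simp only [ys]; fun_prop
  have hσc : ContinuousOn σ (Icc 0 1) := by
    apply ContinuousOn.div
    · apply ContinuousOn.sub
      · exact hg.comp hysc.continuousOn
          (fun θ hθ => ⟨by have := hys θ hθ; linarith, by have := hys θ hθ; linarith⟩)
      · exact hg.comp hxsc.continuousOn
          (fun θ hθ => ⟨by have := hxs θ hθ; linarith, by have := hxs θ hθ; linarith⟩)
    · exact (hysc.sub hxsc).continuousOn
    · exact hden
  have hσ0 : σ 0 = m' := by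
    simp only [σ, xs, ys, zero_mul, sub_zero, add_zero]
    rw [← hm']
    field_simp
  have hσ1 : σ 1 = m := by
    simp only [σ, xs, ys, one_mul]
    have e1 : y + (t - y) = t := by ring
    have e2 : x - (x - s) = s := by ring
    rw [e1, e2, ← hm]
    field_simp
  set v : ℝ := 3 / 4 * m' with hvdef
  have hvpos : 0 < v := by rw [hvdef]; positivity
  have hv3 : 32 * A * (t - s) < v ^ 3 := by
    have : v ^ 3 = 27 / 64 * m' ^ 3 := by rw [hvdef]; ring
    rw [this]; nlinarith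
  have hmv : m < v := by
    have h1 : |m| ^ 3 < v ^ 3 := lt_trans hsmall hv3
    have h2 : |m| < v := lt_of_pow_lt_pow_left₀ 3 hvpos.le h1
    exact lt_of_le_of_lt (le_abs_self m) h2
  have hmem : v ∈ Icc (σ 1) (σ 0) := ⟨by rw [hσ1]; exact hmv.le, by rw [hσ0, hvdef]; linarith⟩
  obtain ⟨θ, hθ, hσθ⟩ := intermediate_value_Icc' zero_le_one hσc hmem
  have hv : v * (ys θ - xs θ) = g (ys θ) - g (xs θ) := by
    rw [← hσθ]
    simp only [σ]
    field_simp [hden θ hθ]
  have hx1 := hxs θ hθ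
  have hy1 := hys θ hθ
  have hlarge : 32 * A * (ys θ - xs θ) ≤ |v| ^ 3 := by
    rw [abs_of_pos hvpos]
    have : A * (ys θ - xs θ) ≤ A * (t - s) := mul_le_mul_of_nonneg_left (by linarith) hA.le
    linarith
  have L := subchord_large hA hg hsup hsup' (s := xs θ) (t := ys θ) (x := x) (y := y)
    (lt_of_lt_of_le hαs hx1.1) hx1.2 hxy hy1.1 (lt_of_le_of_lt hy1.2 htβ) v m' hv hm' hlarge
  have habs : |m' - v| = v / 3 := by
    have : m' - v = v / 3 := by rw [hvdef]; ring
    rw [this, abs_of_pos (by positivity)]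
  rw [habs] at L
  have : A * (ys θ - xs θ) ≤ A * (t - s) := mul_le_mul_of_nonneg_left (by linarith) hA.le
  have e : v ^ 2 * (v / 3) = v ^ 3 / 3 := by ring
  rw [e] at L
  linarith

theorem subchord_small {g : ℝ → ℝ} {α β A : ℝ} (hA : 0 < A) (hg : ContinuousOn g (Ioo α β))
    (hsup : Sup1 g α β A) (hsup' : Sup1 (fun s => -g s) α β A) {s t x y : ℝ} (hαs : α < s)
    (hsx : s ≤ x) (hxy : x < y) (hyt : y ≤ t) (htβ : t < β) (m m' : ℝ)
    (hm : m * (t - s) = g t - g s) (hm' : m' * (y - x) = g y - g x)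
    (hsmall : |m| ^ 3 < 32 * A * (t - s)) : |m'| ^ 3 ≤ 76 * A * (t - s) := by
  have hst : s < t := lt_of_le_of_lt hsx (lt_of_lt_of_le hxy hyt)
  have hh : 0 < t - s := sub_pos.mpr hst
  rcases lt_trichotomy m' 0 with hneg | hzero | hpos
  · have hg' : ContinuousOn (fun s => -g s) (Ioo α β) := hg.neg
    have hsup'' : Sup1 (fun s => -(fun s => -g s) s) α β A := by
      have : (fun s => -(fun s => -g s) s) = g := by funext s; simp
      rw [this]; exact hsup
    have h := subchord_small_pos (g := fun s => -g s) hA hg' hsup' hsup'' hαs hsx hxy hyt htβ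
      (-m) (-m') (by linarith) (by linarith) (by rw [abs_neg]; exact hsmall) (by linarith)
    rw [abs_of_neg hneg]; exact h
  · rw [hzero, abs_zero]
    have : 0 < A * (t - s) := mul_pos hA hh
    nlinarith
  · rw [abs_of_pos hpos]
    exact subchord_small_pos hA hg hsup hsup' hαs hsx hxy hyt htβ m m' hm hm' hsmall hpos

/-- the key estimate: slopes of nested chords differ by at most `8 (A h)^(1/3)` -/
theorem key_estimate {g : ℝ → ℝ} {α β A : ℝ} (hA : 0 < A) (hg : ContinuousOn g (Ioo α β))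
    (hsup : Sup1 g α β A) (hsup' : Sup1 (fun s => -g s) α β A) {s t x y : ℝ} (hαs : α < s)
    (hsx : s ≤ x) (hxy : x < y) (hyt : y ≤ t) (htβ : t < β) (m m' : ℝ)
    (hm : m * (t - s) = g t - g s) (hm' : m' * (y - x) = g y - g x) :
    |m' - m| ^ 3 ≤ 512 * A * (t - s) := by
  have hst : s < t := lt_of_le_of_lt hsx (lt_of_lt_of_le hxy hyt)
  have hh : 0 < t - s := sub_pos.mpr hst
  have hW : 0 < A * (t - s) := mul_pos hA hh
  rcases le_or_gt (32 * A * (t - s)) (|m| ^ 3) with hlarge | hsmall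
  · have L := subchord_large hA hg hsup hsup' hαs hsx hxy hyt htβ m m' hm hm' hlarge
    set W : ℝ := A * (t - s) with hWdef
    set D : ℝ := |m' - m| with hDdef
    have hD : 0 ≤ D := abs_nonneg _
    have hl : 32 * W ≤ |m| ^ 3 := by rw [hWdef]; linarith
    have L' : |m| ^ 2 * D ≤ 10 * W := by rw [sq_abs, hWdef]; linarith
    have h1 : (|m| ^ 2 * D) ^ 3 ≤ (10 * W) ^ 3 := pow_le_pow_left₀ (by positivity) L' 3
    have h2 : (32 * W) ^ 2 ≤ (|m| ^ 3) ^ 2 := pow_le_pow_left₀ (by positivity) hl 2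
    have h3 : (32 * W) ^ 2 * D ^ 3 ≤ (|m| ^ 3) ^ 2 * D ^ 3 :=
      mul_le_mul_of_nonneg_right h2 (by positivity)
    have h4 : (|m| ^ 3) ^ 2 * D ^ 3 = (|m| ^ 2 * D) ^ 3 := by ring
    have h5 : W ^ 2 * (1024 * D ^ 3) ≤ W ^ 2 * (1000 * W) := by nlinarith
    have h6 : 1024 * D ^ 3 ≤ 1000 * W := le_of_mul_le_mul_left h5 (by positivity)
    have : 512 * A * (t - s) = 512 * W := by rw [hWdef]; ring
    rw [this]
    linarith
  · have S := subchord_small hA hg hsup hsup' hαs hsx hxy hyt htβ m m' hm hm' hsmall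
    have h1 : |m' - m| ≤ |m'| + |m| := abs_sub _ _
    have h2 : |m' - m| ^ 3 ≤ (|m'| + |m|) ^ 3 := pow_le_pow_left₀ (abs_nonneg _) h1 3
    have ha : 0 ≤ |m'| := abs_nonneg _
    have hb : 0 ≤ |m| := abs_nonneg _
    have h3 : (|m'| + |m|) ^ 3 ≤ 4 * (|m'| ^ 3 + |m| ^ 3) := by
      nlinarith [mul_nonneg (add_nonneg ha hb) (sq_nonneg (|m'| - |m|))]
    nlinarith

end Vale.Agent.Lib.P080
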