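import Vale.Agent.Lib.P080.OneD

namespace Vale.Agent.Lib.P080

open Set Filter Topology

theorem slope_mul (g : ℝ → ℝ) {x y : ℝ} (hxy : x < y) : slope g x y * (y - x) = g y - g x := by
  rw [slope_def_field]
  have : y - x ≠ 0 := ne_of_gt (sub_pos.mpr hxy)
  field_simp

/-- slopes of two sub-chords of a common chord are close -/
theorem key_estimate2 {g : ℝ → ℝ} {α β A : ℝ} (hA : 0 < A) (hg : ContinuousOn g (Ioo α β))
    (hsup : Sup1 g α β A) (hsup' : Sup1 (fun s => -g s) α β A) {s t x y x' y' : ℝ}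
    (hαs : α < s) (htβ : t < β) (hsx : s ≤ x) (hxy : x < y) (hyt : y ≤ t)
    (hsx' : s ≤ x') (hxy' : x' < y') (hyt' : y' ≤ t) :
    |slope g x y - slope g x' y'| ^ 3 ≤ 4096 * A * (t - s) := by
  have hst : s < t := lt_of_le_of_lt hsx (lt_of_lt_of_le hxy hyt)
  have k1 := key_estimate hA hg hsup hsup' hαs hsx hxy hyt htβ (slope g s t) (slope g x y)
    (slope_mul g hst) (slope_mul g hxy)
  have k2 := key_estimate hA hg hsup hsup' hαs hsx' hxy' hyt' htβ (slope g s t) (slope g x' y')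
    (slope_mul g hst) (slope_mul g hxy')
  set a := |slope g x y - slope g s t|
  set b := |slope g x' y' - slope g s t|
  have ha : 0 ≤ a := abs_nonneg _
  have hb : 0 ≤ b := abs_nonneg _
  have h1 : |slope g x y - slope g x' y'| ≤ a + b := by
    have : slope g x y - slope g x' y' =
        (slope g x y - slope g s t) - (slope g x' y' - slope g s t) := by ring
    rw [this]
    exact abs_sub _ _
  have h2 : |slope g x y - slope g x' y'| ^ 3 ≤ (a + b) ^ 3 :=
    pow_le_pow_left₀ (abs_nonneg _) h1 3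
  have h3 : (a + b) ^ 3 ≤ 4 * (a ^ 3 + b ^ 3) := by
    nlinarith [mul_nonneg (add_nonneg ha hb) (sq_nonneg (a - b))]
  linarith

theorem oneD_differentiableAt {g : ℝ → ℝ} {α β A : ℝ} (hA : 0 < A)
    (hg : ContinuousOn g (Ioo α β))
    (hsup : Sup1 g α β A) (hsup' : Sup1 (fun s => -g s) α β A) {t0 : ℝ} (h1 : α < t0)
    (h2 : t0 < β) : DifferentiableAt ℝ g t0 := by
  have hc : Cauchy (map (slope g t0) (𝓝[≠] t0)) := by
    rw [Metric.cauchy_iff]
    refine ⟨inferInstance, ?_⟩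
    intro ε hε
    obtain ⟨δ, hδpos, hδ1, hδ2, hδ3⟩ : ∃ δ > 0, α < t0 - δ ∧ t0 + δ < β ∧
        4096 * A * (2 * δ) < ε ^ 3 := by
      have hε3 : 0 < ε ^ 3 := by positivity
      refine ⟨min (min ((t0 - α) / 2) ((β - t0) / 2)) (ε ^ 3 / (4096 * A * 4)), ?_, ?_, ?_, ?_⟩
      · refine lt_min (lt_min ?_ ?_) ?_
        · linarith
        · linarith
        · positivity
      · have := min_le_left (min ((t0 - α) / 2) ((β - t0) / 2)) (ε ^ 3 / (4096 * A * 4))
        have := min_le_left ((t0 - α) / 2) ((β - t0) / 2)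
        linarith
      · have := min_le_left (min ((t0 - α) / 2) ((β - t0) / 2)) (ε ^ 3 / (4096 * A * 4))
        have := min_le_right ((t0 - α) / 2) ((β - t0) / 2)
        linarith
      · have h3 := min_le_right (min ((t0 - α) / 2) ((β - t0) / 2)) (ε ^ 3 / (4096 * A * 4))
        have h4 : 4096 * A * (2 * (ε ^ 3 / (4096 * A * 4))) = ε ^ 3 / 2 := by
          field_simp; ring
        have h5 : 4096 * A * (2 * min (min ((t0 - α) / 2) ((β - t0) / 2)) (ε ^ 3 / (4096 * A * 4)))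
            ≤ 4096 * A * (2 * (ε ^ 3 / (4096 * A * 4))) := by
          apply mul_le_mul_of_nonneg_left _ (by positivity)
          linarith
        linarith
    refine ⟨slope g t0 '' ({t0}ᶜ ∩ Metric.ball t0 δ),
      image_mem_map (inter_mem_nhdsWithin _ (Metric.ball_mem_nhds t0 hδpos)), ?_⟩
    have key : ∀ x, x ≠ t0 → |x - t0| < δ → ∃ a b, t0 - δ ≤ a ∧ a < b ∧ b ≤ t0 + δ ∧
        slope g t0 x = slope g a b := by
      intro x hx hd
      rcases lt_or_gt_of_ne hx with h | h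
      · exact ⟨x, t0, by linarith [(abs_lt.mp hd).1], h, by linarith, slope_comm g t0 x⟩
      · exact ⟨t0, x, by linarith, h, by linarith [(abs_lt.mp hd).2], rfl⟩
    rintro _ ⟨x, ⟨hx1, hx2⟩, rfl⟩ _ ⟨x', ⟨hx1', hx2'⟩, rfl⟩
    rw [Metric.mem_ball, Real.dist_eq] at hx2 hx2'
    obtain ⟨a, b, ha, hab, hb, e⟩ := key x hx1 hx2
    obtain ⟨a', b', ha', hab', hb', e'⟩ := key x' hx1' hx2'
    rw [Real.dist_eq, e, e']
    have hk := key_estimate2 hA hg hsup hsup' (s := t0 - δ) (t := t0 + δ) hδ1 hδ2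
      ha hab hb ha' hab' hb'
    have e2 : 4096 * A * (t0 + δ - (t0 - δ)) = 4096 * A * (2 * δ) := by ring
    rw [e2] at hk
    exact lt_of_pow_lt_pow_left₀ 3 hε.le (lt_of_le_of_lt hk hδ3)
  obtain ⟨d, hd⟩ := cauchy_map_iff_exists_tendsto.mp hc
  exact (hasDerivAt_iff_tendsto_slope.mpr hd).differentiableAt

theorem oneD_deriv_holder_lt {g : ℝ → ℝ} {α β A : ℝ} (hA : 0 < A)
    (hg : ContinuousOn g (Ioo α β))
    (hsup : Sup1 g α β A) (hsup' : Sup1 (fun s => -g s) α β A) {s t : ℝ} (hαs : α < s)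
    (hst : s < t) (htβ : t < β) :
    |deriv g s - deriv g t| ^ 3 ≤ 4096 * A * (t - s) := by
  have hds : HasDerivAt g (deriv g s) s :=
    (oneD_differentiableAt hA hg hsup hsup' hαs (lt_trans hst htβ)).hasDerivAt
  have hdt : HasDerivAt g (deriv g t) t :=
    (oneD_differentiableAt hA hg hsup hsup' (lt_trans hαs hst) htβ).hasDerivAt
  have t1 : Tendsto (slope g s) (𝓝[>] s) (𝓝 (deriv g s)) :=
    (hasDerivAt_iff_tendsto_slope.mp hds).mono_left
      (nhdsWithin_mono _ (fun x hx => ne_of_gt hx))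
  have t2 : Tendsto (slope g t) (𝓝[<] t) (𝓝 (deriv g t)) :=
    (hasDerivAt_iff_tendsto_slope.mp hdt).mono_left
      (nhdsWithin_mono _ (fun x hx => ne_of_lt hx))
  have step1 : ∀ x' ∈ Ioo s t, |deriv g s - slope g t x'| ^ 3 ≤ 4096 * A * (t - s) := by
    intro x' hx'
    have hlim : Tendsto (fun x => |slope g s x - slope g t x'| ^ 3) (𝓝[>] s)
        (𝓝 (|deriv g s - slope g t x'| ^ 3)) := ((t1.sub_const _).abs).pow 3
    refine le_of_tendsto hlim ?_
    filter_upwards [Ioo_mem_nhdsGT hst] with x hx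
    rw [slope_comm g t x']
    exact key_estimate2 hA hg hsup hsup' hαs htβ le_rfl hx.1 hx.2.le hx'.1.le hx'.2 le_rfl
  have hlim2 : Tendsto (fun x' => |deriv g s - slope g t x'| ^ 3) (𝓝[<] t)
      (𝓝 (|deriv g s - deriv g t| ^ 3)) := ((t2.const_sub _).abs).pow 3
  refine le_of_tendsto hlim2 ?_
  filter_upwards [Ioo_mem_nhdsLT hst] with x' hx'
  exact step1 x' hx'

theorem oneD_deriv_holder {g : ℝ → ℝ} {α β A : ℝ} (hA : 0 < A)
    (hg : ContinuousOn g (Ioo α β))
    (hsup : Sup1 g α β A) (hsup' : Sup1 (fun s => -g s) α β A) {s t : ℝ}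
    (hs : s ∈ Ioo α β) (ht : t ∈ Ioo α β) :
    |deriv g s - deriv g t| ^ 3 ≤ 4096 * A * |s - t| := by
  rcases lt_trichotomy s t with h | h | h
  · rw [abs_of_neg (by linarith : s - t < 0)]
    have := oneD_deriv_holder_lt hA hg hsup hsup' hs.1 h ht.2
    linarith
  · rw [h]; simp
  · rw [abs_of_pos (by linarith : 0 < s - t), abs_sub_comm]
    exact oneD_deriv_holder_lt hA hg hsup hsup' ht.1 h hs.2

theorem oneD_contDiffOn {g : ℝ → ℝ} {α β A : ℝ} (hA : 0 < A)
    (hg : ContinuousOn g (Ioo α β))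
    (hsup : Sup1 g α β A) (hsup' : Sup1 (fun s => -g s) α β A) :
    ContDiffOn ℝ 1 g (Ioo α β) := by
  have hdiff : DifferentiableOn ℝ g (Ioo α β) := fun t ht =>
    (oneD_differentiableAt hA hg hsup hsup' ht.1 ht.2).differentiableWithinAt
  have hcont : ContinuousOn (deriv g) (Ioo α β) := by
    rw [Metric.continuousOn_iff]
    intro b hb ε hε
    refine ⟨ε ^ 3 / (4096 * A * 2), by positivity, ?_⟩
    intro a ha hab
    rw [Real.dist_eq] at hab ⊢
    have h1 := oneD_deriv_holder hA hg hsup hsup' ha hb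
    have h2 : 4096 * A * |a - b| < ε ^ 3 := by
      have : 4096 * A * |a - b| < 4096 * A * (ε ^ 3 / (4096 * A * 2)) :=
        mul_lt_mul_of_pos_left hab (by positivity)
      have e : 4096 * A * (ε ^ 3 / (4096 * A * 2)) = ε ^ 3 / 2 := by field_simp
      have : 0 < ε ^ 3 := by positivity
      linarith
    exact lt_of_pow_lt_pow_left₀ 3 hε.le (lt_of_le_of_lt h1 h2)
  have h := (contDiffOn_succ_iff_deriv_of_isOpen (𝕜 := ℝ) (n := 0) (f := g) isOpen_Ioo).mpr
    ⟨hdiff, by simp, contDiffOn_zero.mpr hcont⟩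
  simpa using h

end Vale.Agent.Lib.P080
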