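import Vale.Agent.Lib.P080.Holder

namespace Vale.Agent.Lib.P080

open Set Filter Topology

/-- a continuous function of oscillation at most `M` on an interval is touched from above by a
parabola with controlled data -/
theorem exists_jet_max_quant {g : ℝ → ℝ} {α β : ℝ} (hαβ : α < β) (hg : ContinuousOn g (Ioo α β))
    (M : ℝ) (hM : 0 < M) (hosc : ∀ s ∈ Ioo α β, ∀ t ∈ Ioo α β, |g s - g t| ≤ M) :
    ∃ t, α < t ∧ t < β ∧ ∃ c p X : ℝ, IsLocalMax (fun s => g s - parab t c p X s) t ∧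
      |p ^ 2 * X| ≤ 82944 * M ^ 3 / (β - α) ^ 4 := by
  set a : ℝ := (2 * α + β) / 3 with ha
  set b : ℝ := (α + 2 * β) / 3 with hb
  set t0 : ℝ := (α + β) / 2 with ht0
  set r : ℝ := (β - α) / 6 with hr
  have hrpos : 0 < r := by rw [hr]; linarith
  have hab : a < b := by rw [ha, hb]; linarith
  have hsub : Icc a b ⊆ Ioo α β := by
    intro y hy
    rw [ha, hb] at hy
    exact ⟨by linarith [hy.1], by linarith [hy.2]⟩
  have hgc : ContinuousOn g (Icc a b) := hg.mono hsub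
  set K : ℝ := 2 * M / r ^ 2 with hK
  have hKpos : 0 < K := by rw [hK]; positivity
  have hKe : K * r ^ 2 = 2 * M := by
    rw [hK]
    exact div_mul_cancel₀ _ (ne_of_gt (by positivity))
  let w : ℝ → ℝ := fun y => g y - K * (y - t0) ^ 2
  have hwc : ContinuousOn w (Icc a b) := by
    apply hgc.sub
    exact (by fun_prop : Continuous fun y : ℝ => K * (y - t0) ^ 2).continuousOn
  obtain ⟨t1, ht1mem, ht1max⟩ := isCompact_Icc.exists_isMaxOn (nonempty_Icc.mpr hab.le) hwc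
  have ht0mem : t0 ∈ Icc a b := by
    rw [ha, hb, ht0]; constructor <;> linarith
  have hamem : a ∈ Icc a b := left_mem_Icc.mpr hab.le
  have hbmem : b ∈ Icc a b := right_mem_Icc.mpr hab.le
  have hw0 : w t0 = g t0 := by simp only [w, sub_self]; ring
  have hwa : w a < w t0 := by
    rw [hw0]
    simp only [w]
    have e : (a - t0) ^ 2 = r ^ 2 := by rw [ha, ht0, hr]; ring
    rw [e, hKe]
    have := abs_le.mp (hosc a (hsub hamem) t0 (hsub ht0mem))
    linarith [this.2]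
  have hwb : w b < w t0 := by
    rw [hw0]
    simp only [w]
    have e : (b - t0) ^ 2 = r ^ 2 := by rw [hb, ht0, hr]; ring
    rw [e, hKe]
    have := abs_le.mp (hosc b (hsub hbmem) t0 (hsub ht0mem))
    linarith [this.2]
  have h1 : w t0 ≤ w t1 := ht1max ht0mem
  have hat1 : a < t1 := by
    rcases eq_or_lt_of_le ht1mem.1 with h | h
    · rw [← h] at h1; linarith
    · exact h
  have ht1b : t1 < b := by
    rcases eq_or_lt_of_le ht1mem.2 with h | h
    · rw [h] at h1; linarith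
    · exact h
  have hloc : IsLocalMax w t1 :=
    Filter.eventually_of_mem (Icc_mem_nhds hat1 ht1b) (fun y hy => ht1max hy)
  have ht1 := hsub ht1mem
  refine ⟨t1, ht1.1, ht1.2, K * (t1 - t0) ^ 2, 2 * K * (t1 - t0), 2 * K, ?_, ?_⟩
  · have heq : (fun s => g s - parab t1 (K * (t1 - t0) ^ 2) (2 * K * (t1 - t0)) (2 * K) s) = w := by
      funext y
      simp only [parab, w]; ring
    rw [heq]; exact hloc
  · have hd : (t1 - t0) ^ 2 ≤ r ^ 2 := by
      have h2 : |t1 - t0| ≤ r := by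
        rw [abs_le, hr, ht0]
        rw [ha] at hat1
        rw [hb] at ht1b
        constructor <;> linarith
      have := pow_le_pow_left₀ (abs_nonneg _) h2 2
      rwa [sq_abs] at this
    have e1 : (2 * K * (t1 - t0)) ^ 2 * (2 * K) = 8 * K ^ 3 * (t1 - t0) ^ 2 := by ring
    rw [e1, abs_of_nonneg (by positivity)]
    have h3 : 8 * K ^ 3 * (t1 - t0) ^ 2 ≤ 8 * K ^ 3 * r ^ 2 :=
      mul_le_mul_of_nonneg_left hd (by positivity)
    have e2 : 8 * K ^ 3 * r ^ 2 = 82944 * M ^ 3 / (β - α) ^ 4 := by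
      rw [hK, hr]
      have : β - α ≠ 0 := ne_of_gt (sub_pos.mpr hαβ)
      field_simp
      ring
    linarith

theorem exists_jet_min_quant {g : ℝ → ℝ} {α β : ℝ} (hαβ : α < β) (hg : ContinuousOn g (Ioo α β))
    (M : ℝ) (hM : 0 < M) (hosc : ∀ s ∈ Ioo α β, ∀ t ∈ Ioo α β, |g s - g t| ≤ M) :
    ∃ t, α < t ∧ t < β ∧ ∃ c p X : ℝ, IsLocalMin (fun s => g s - parab t c p X s) t ∧
      |p ^ 2 * X| ≤ 82944 * M ^ 3 / (β - α) ^ 4 := by
  have hg' : ContinuousOn (fun s => -g s) (Ioo α β) := hg.neg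
  have hosc' : ∀ s ∈ Ioo α β, ∀ t ∈ Ioo α β, |(-g s) - (-g t)| ≤ M := by
    intro s hs t ht
    have := hosc s hs t ht
    rw [show -g s - -g t = -(g s - g t) by ring, abs_neg]
    exact this
  obtain ⟨t, h1, h2, c, p, X, hmax, hb⟩ := exists_jet_max_quant hαβ hg' M hM hosc'
  refine ⟨t, h1, h2, -c, -p, -X, ?_, ?_⟩
  · have := hmax.neg
    have heq : (fun s => g s - parab t (-c) (-p) (-X) s) =
        fun s => -(-g s - parab t c p X s) := by
      funext s
      simp only [parab]; ring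
    rw [heq]; exact this
  · rw [show (-p) ^ 2 * (-X) = -(p ^ 2 * X) by ring, abs_neg]
    exact hb

variable {d : ℕ}

theorem sep_osc (α β : Fin d → ℝ) (f : Fin d → ℝ → ℝ) (M : ℝ)
    (hosc : ∀ x ∈ box α β, ∀ y ∈ box α β, |sepFun f x - sepFun f y| ≤ M)
    (z0 : EuclideanSpace ℝ (Fin d)) (hz0 : z0 ∈ box α β) (i : Fin d) :
    ∀ s ∈ Ioo (α i) (β i), ∀ t ∈ Ioo (α i) (β i), |f i s - f i t| ≤ M := by
  classical
  let L : ℝ → EuclideanSpace ℝ (Fin d) := fun t => z0 + (t - z0 i) • EuclideanSpace.single i (1 : ℝ)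
  have hLi : ∀ t, (L t) i = t := by
    intro t
    simp [L]
  have hLj : ∀ t j, j ≠ i → (L t) j = z0 j := by
    intro t j hj
    simp [L, hj]
  have hmaps : ∀ t ∈ Ioo (α i) (β i), L t ∈ box α β := by
    intro t ht j
    by_cases hj : j = i
    · subst hj; rw [hLi]; exact ht
    · rw [hLj t j hj]; exact hz0 j
  have heq : ∀ t, sepFun f (L t) = f i t + ∑ j ∈ Finset.univ.erase i, f j (z0 j) := by
    intro t
    unfold sepFun
    rw [← Finset.add_sum_erase Finset.univ (fun j => f j ((L t) j)) (Finset.mem_univ i), hLi]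
    congr 1
    apply Finset.sum_congr rfl
    intro j hj
    rw [hLj t j (Finset.ne_of_mem_erase hj)]
  intro s hs t ht
  have h := hosc (L s) (hmaps s hs) (L t) (hmaps t ht)
  rw [heq s, heq t] at h
  rw [show f i s - f i t = f i s + ∑ j ∈ Finset.univ.erase i, f j (z0 j) -
    (f i t + ∑ j ∈ Finset.univ.erase i, f j (z0 j)) by ring]
  exact h

/-- quantitative version of `sep_exists_A` -/
theorem sep_exists_A_quant (α β : Fin d → ℝ) (f : Fin d → ℝ → ℝ) (l M : ℝ) (hl : 0 < l)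
    (hM : 0 < M) (hlen : ∀ i, l ≤ β i - α i)
    (hu : IsInfHarmonicOn (sepFun f) (box α β))
    (hosc : ∀ x ∈ box α β, ∀ y ∈ box α β, |sepFun f x - sepFun f y| ≤ M)
    (z0 : EuclideanSpace ℝ (Fin d)) (hz0 : z0 ∈ box α β) :
    ∀ i, ContinuousOn (f i) (Ioo (α i) (β i)) ∧
      Sup1 (f i) (α i) (β i) ((165888 * d + 1) * (M ^ 3 / l ^ 4)) ∧
      Sup1 (fun s => -f i s) (α i) (β i) ((165888 * d + 1) * (M ^ 3 / l ^ 4)) := by
  have hc : ∀ i, ContinuousOn (f i) (Ioo (α i) (β i)) :=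
    fun i => sep_continuousOn α β f hu.1 z0 hz0 i
  have hαβ : ∀ i, α i < β i := fun i => lt_trans (hz0 i).1 (hz0 i).2
  have ho := sep_osc α β f M hosc z0 hz0
  choose tM htM1 htM2 cM pM XM hM' hbM using
    fun j => exists_jet_max_quant (hαβ j) (hc j) M hM (ho j)
  choose tm htm1 htm2 cm pm Xm hm' hbm using
    fun j => exists_jet_min_quant (hαβ j) (hc j) M hM (ho j)
  have hq : 0 < M ^ 3 / l ^ 4 := by positivity
  have hbound : ∀ j, 82944 * M ^ 3 / (β j - α j) ^ 4 ≤ 82944 * (M ^ 3 / l ^ 4) := by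
    intro j
    have h1 : l ^ 4 ≤ (β j - α j) ^ 4 := pow_le_pow_left₀ hl.le (hlen j) 4
    have h2 : 0 < l ^ 4 := by positivity
    rw [← mul_div_assoc]
    exact div_le_div_of_nonneg_left (by positivity) h2 h1
  have hsumM : ∑ j, |pM j ^ 2 * XM j| ≤ (d : ℝ) * (82944 * (M ^ 3 / l ^ 4)) := by
    have := Finset.sum_le_card_nsmul (Finset.univ : Finset (Fin d)) (fun j => |pM j ^ 2 * XM j|)
      (82944 * (M ^ 3 / l ^ 4)) (fun j _ => (hbM j).trans (hbound j))
    simpa using this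
  have hsumm : ∑ j, |pm j ^ 2 * Xm j| ≤ (d : ℝ) * (82944 * (M ^ 3 / l ^ 4)) := by
    have := Finset.sum_le_card_nsmul (Finset.univ : Finset (Fin d)) (fun j => |pm j ^ 2 * Xm j|)
      (82944 * (M ^ 3 / l ^ 4)) (fun j _ => (hbm j).trans (hbound j))
    simpa using this
  intro i
  refine ⟨hc i, ?_, ?_⟩
  · exact sep_sup1 α β f hu tm cm pm Xm (fun j => ⟨htm1 j, htm2 j⟩) hm' _ (by nlinarith) i
  · exact sep_sup1_neg α β f hu tM cM pM XM (fun j => ⟨htM1 j, htM2 j⟩) hM' _ (by nlinarith) i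

/-- quantitative `C^{1,1/3}` estimate for separable infinity-harmonic functions on a box -/
theorem sep_holder_quant (α β : Fin d → ℝ) (f : Fin d → ℝ → ℝ) (l M : ℝ) (hl : 0 < l)
    (hM : 0 < M) (hlen : ∀ i, l ≤ β i - α i)
    (hu : IsInfHarmonicOn (sepFun f) (box α β))
    (hosc : ∀ x ∈ box α β, ∀ y ∈ box α β, |sepFun f x - sepFun f y| ≤ M) :
    ∀ x ∈ box α β, ∀ y ∈ box α β,
      ‖fderiv ℝ (sepFun f) x - fderiv ℝ (sepFun f) y‖ ^ 3 ≤
        4096 * (d : ℝ) ^ 3 * (165888 * d + 1) * (M ^ 3 / l ^ 4) * ‖x - y‖ := by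
  intro x hx y hy
  have h := sep_exists_A_quant α β f l M hl hM hlen hu hosc x hx
  set A : ℝ := (165888 * d + 1) * (M ^ 3 / l ^ 4) with hAdef
  have hA : 0 < A := by rw [hAdef]; positivity
  rw [(sepFun_hasFDerivAt α β f A hA h x hx).fderiv, (sepFun_hasFDerivAt α β f A hA h y hy).fderiv,
    ← Finset.sum_sub_distrib]
  have e : ∑ i, (deriv (f i) (x i) • (EuclideanSpace.proj i : EuclideanSpace ℝ (Fin d) →L[ℝ] ℝ) -
      deriv (f i) (y i) • (EuclideanSpace.proj i : EuclideanSpace ℝ (Fin d) →L[ℝ] ℝ)) =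
      ∑ i, (deriv (f i) (x i) - deriv (f i) (y i)) •
        (EuclideanSpace.proj i : EuclideanSpace ℝ (Fin d) →L[ℝ] ℝ) := by
    apply Finset.sum_congr rfl
    intro i _
    rw [sub_smul]
  rw [e]
  have h1 := norm_sum_smul_proj_le (fun i => deriv (f i) (x i) - deriv (f i) (y i))
  have h2 : ‖∑ i, (deriv (f i) (x i) - deriv (f i) (y i)) •
      (EuclideanSpace.proj i : EuclideanSpace ℝ (Fin d) →L[ℝ] ℝ)‖ ^ 3 ≤
      (∑ i, |deriv (f i) (x i) - deriv (f i) (y i)|) ^ 3 :=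
    pow_le_pow_left₀ (norm_nonneg _) h1 3
  have h3 : (∑ i, |deriv (f i) (x i) - deriv (f i) (y i)|) ^ 3 ≤
      (d : ℝ) ^ 3 * (4096 * A * ‖x - y‖) := by
    apply sum_cube_le _ _ (fun i => abs_nonneg _)
    intro i
    have h4 := oneD_deriv_holder hA (h i).1 (h i).2.1 (h i).2.2 (hx i) (hy i)
    have h5 : |x i - y i| ≤ ‖x - y‖ := by
      have := PiLp.norm_apply_le (x - y) i
      simpa [Real.norm_eq_abs] using this
    have h6 : 4096 * A * |x i - y i| ≤ 4096 * A * ‖x - y‖ :=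
      mul_le_mul_of_nonneg_left h5 (by positivity)
    linarith
  calc _ ≤ _ := h2
    _ ≤ _ := h3
    _ = 4096 * (d : ℝ) ^ 3 * A * ‖x - y‖ := by ring
    _ = 4096 * (d : ℝ) ^ 3 * (165888 * d + 1) * (M ^ 3 / l ^ 4) * ‖x - y‖ := by
      rw [hAdef]; ring

end Vale.Agent.Lib.P080
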