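import Vale.Agent.Lib.P080.Jets
import Vale.Agent.Lib.P080.Defs

namespace Vale.Agent.Lib.P080

open Set Filter Topology

variable {d : ℕ}

/-- separable quadratic test function -/
noncomputable def sepTest (t c p X : Fin d → ℝ) (x : EuclideanSpace ℝ (Fin d)) : ℝ :=
  ∑ j, parab (t j) (c j) (p j) (X j) (x j)

theorem sepTest_contDiff (t c p X : Fin d → ℝ) : ContDiff ℝ 2 (sepTest t c p X) := by
  unfold sepTest parab
  fun_prop

theorem parab_hasDerivAt (t c p X s : ℝ) :
    HasDerivAt (parab t c p X) (p + X * (s - t)) s := by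
  unfold parab
  have h1 : HasDerivAt (fun s : ℝ => s - t) 1 s := (hasDerivAt_id' s).sub_const t
  have h2 : HasDerivAt (fun s : ℝ => (s - t) ^ 2) (2 * (s - t) ^ (2 - 1) * 1) s := h1.pow 2
  have h3 : HasDerivAt (fun s : ℝ => c + p * (s - t) + X / 2 * (s - t) ^ 2)
      (p * 1 + X / 2 * (2 * (s - t) ^ (2 - 1) * 1)) s :=
    ((h1.const_mul p).const_add c).add (h2.const_mul (X / 2))
  exact h3.congr_deriv (by ring)

theorem sepTest_hasFDerivAt (t c p X : Fin d → ℝ) (x : EuclideanSpace ℝ (Fin d)) :
    HasFDerivAt (sepTest t c p X)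
      (∑ j, (p j + X j * (x j - t j)) • (EuclideanSpace.proj j : EuclideanSpace ℝ (Fin d) →L[ℝ] ℝ))
      x := by
  unfold sepTest
  apply HasFDerivAt.fun_sum
  intro j _
  have h1 := parab_hasDerivAt (t j) (c j) (p j) (X j) (x j)
  have h2 : HasFDerivAt (fun y : EuclideanSpace ℝ (Fin d) => y j)
      (EuclideanSpace.proj j : EuclideanSpace ℝ (Fin d) →L[ℝ] ℝ) x :=
    (EuclideanSpace.proj j : EuclideanSpace ℝ (Fin d) →L[ℝ] ℝ).hasFDerivAt
  exact h1.comp_hasFDerivAt x h2

theorem partialDeriv_sepTest (t c p X : Fin d → ℝ) (i : Fin d) :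
    partialDeriv i (sepTest t c p X) = fun x => p i + X i * (x i - t i) := by
  funext x
  unfold partialDeriv
  rw [(sepTest_hasFDerivAt t c p X x).fderiv]
  simp [PiLp.single_apply]

theorem partialDeriv_affine (p X t : ℝ) (i j : Fin d) (z : EuclideanSpace ℝ (Fin d)) :
    partialDeriv i (fun x : EuclideanSpace ℝ (Fin d) => p + X * (x j - t)) z =
      if i = j then X else 0 := by
  unfold partialDeriv
  have h2 : HasFDerivAt (fun y : EuclideanSpace ℝ (Fin d) => y j)
      (EuclideanSpace.proj j : EuclideanSpace ℝ (Fin d) →L[ℝ] ℝ) z :=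
    (EuclideanSpace.proj j : EuclideanSpace ℝ (Fin d) →L[ℝ] ℝ).hasFDerivAt
  have h3 := ((h2.sub_const t).const_mul X).const_add p
  rw [h3.fderiv]
  simp [PiLp.single_apply, eq_comm]

theorem infLaplacian_sepTest (t c p X : Fin d → ℝ) :
    infLaplacian (sepTest t c p X) (WithLp.toLp 2 t) = ∑ i, p i ^ 2 * X i := by
  unfold infLaplacian
  apply Finset.sum_congr rfl
  intro i _
  simp only [partialDeriv_sepTest, partialDeriv_affine]
  simp [pow_two]

theorem isLocalMax_finset_sum {ι X : Type*} [TopologicalSpace X] (s : Finset ι) (F : ι → X → ℝ)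
    (a : X) (h : ∀ j ∈ s, IsLocalMax (F j) a) : IsLocalMax (fun x => ∑ j ∈ s, F j x) a := by
  classical
  induction s using Finset.induction_on with
  | empty => simp only [Finset.sum_empty]; exact isLocalMax_const
  | insert j s hj ih =>
    simp only [Finset.sum_insert hj]
    exact (h j (Finset.mem_insert_self j s)).add
      (ih (fun k hk => h k (Finset.mem_insert_of_mem hk)))

theorem sep_isLocalMax (f : Fin d → ℝ → ℝ) (t c p X : Fin d → ℝ)
    (h : ∀ j, IsLocalMax (fun s => f j s - parab (t j) (c j) (p j) (X j) s) (t j)) :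
    IsLocalMax (fun x : EuclideanSpace ℝ (Fin d) => (∑ j, f j (x j)) - sepTest t c p X x)
      (WithLp.toLp 2 t) := by
  have heq : (fun x : EuclideanSpace ℝ (Fin d) => (∑ j, f j (x j)) - sepTest t c p X x) =
      fun x => ∑ j, (f j (x j) - parab (t j) (c j) (p j) (X j) (x j)) := by
    funext x
    simp only [sepTest, Finset.sum_sub_distrib]
  rw [heq]
  apply isLocalMax_finset_sum
  intro j _
  have hc : ContinuousAt (fun x : EuclideanSpace ℝ (Fin d) => x j) (WithLp.toLp 2 t) := by
    fun_prop
  exact IsLocalMax.comp_continuous (f := fun s => f j s - parab (t j) (c j) (p j) (X j) s)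
    (g := fun x : EuclideanSpace ℝ (Fin d) => x j) (h j) hc

theorem sep_isLocalMin (f : Fin d → ℝ → ℝ) (t c p X : Fin d → ℝ)
    (h : ∀ j, IsLocalMin (fun s => f j s - parab (t j) (c j) (p j) (X j) s) (t j)) :
    IsLocalMin (fun x : EuclideanSpace ℝ (Fin d) => (∑ j, f j (x j)) - sepTest t c p X x)
      (WithLp.toLp 2 t) := by
  have h' : ∀ j, IsLocalMax (fun s => (fun j s => -f j s) j s -
      parab (t j) (-c j) (-p j) (-X j) s) (t j) := by
    intro j
    have := (h j).neg
    have heq : (fun s => (fun j s => -f j s) j s - parab (t j) (-c j) (-p j) (-X j) s) =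
        fun s => -(f j s - parab (t j) (c j) (p j) (X j) s) := by
      funext s
      simp only [parab]; ring
    rw [heq]; exact this
  have h2 := sep_isLocalMax (fun j s => -f j s) t (fun j => -c j) (fun j => -p j)
    (fun j => -X j) h'
  have h3 := h2.neg
  have heq : (fun x : EuclideanSpace ℝ (Fin d) => (∑ j, f j (x j)) - sepTest t c p X x) =
      fun x => -((∑ j, (fun j s => -f j s) j (x j)) -
        sepTest t (fun j => -c j) (fun j => -p j) (fun j => -X j) x) := by
    funext x
    simp only [sepTest, parab, Finset.sum_neg_distrib]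
    rw [← Finset.sum_neg_distrib, ← Finset.sum_sub_distrib, ← Finset.sum_sub_distrib,
      ← Finset.sum_neg_distrib]
    apply Finset.sum_congr rfl
    intro j _
    ring
  rw [heq]; exact h3

end Vale.Agent.Lib.P080
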