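import Vale.Agent.Lib.P080.Main

namespace Vale.Agent.Lib.P080

open Set Filter Topology

/-- every parabola touching `g` from below at a point of `(α, β)` has `p ^ 2 * X ≤ M` -/
def LowJet (g : ℝ → ℝ) (α β M : ℝ) : Prop :=
  ∀ t, α < t → t < β → ∀ c p X : ℝ,
    IsLocalMin (fun s => g s - parab t c p X s) t → p ^ 2 * X ≤ M

theorem exists_lt_of_deriv_neg {w : ℝ → ℝ} {w' s t : ℝ} (hw : HasDerivAt w w' s) (hneg : w' < 0)
    (hst : s < t) : ∃ r ∈ Ioo s t, w r < w s := by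
  have h := hasDerivAt_iff_tendsto_slope.mp hw
  have h1 : ∀ᶠ r in 𝓝[≠] s, slope w s r < 0 := h.eventually (eventually_lt_nhds hneg)
  have h2 : ∀ᶠ r in 𝓝[>] s, slope w s r < 0 := nhdsGT_le_nhdsNE s h1
  have h3 : ∀ᶠ r in 𝓝[>] s, r ∈ Ioo s t := Ioo_mem_nhdsGT hst
  obtain ⟨r, hr1, hr2⟩ := (h2.and h3).exists
  refine ⟨r, hr2, ?_⟩
  rw [slope_def_field] at hr1
  have hpos : 0 < r - s := sub_pos.mpr hr2.1
  by_contra hcon
  rw [not_lt] at hcon
  have : 0 ≤ (w r - w s) / (r - s) := div_nonneg (by linarith) hpos.le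
  linarith

theorem exists_lt_of_deriv_pos {w : ℝ → ℝ} {w' s t : ℝ} (hw : HasDerivAt w w' t) (hpos : 0 < w')
    (hst : s < t) : ∃ r ∈ Ioo s t, w r < w t := by
  have h := hasDerivAt_iff_tendsto_slope.mp hw
  have h1 : ∀ᶠ r in 𝓝[≠] t, 0 < slope w t r := h.eventually (eventually_gt_nhds hpos)
  have h2 : ∀ᶠ r in 𝓝[<] t, 0 < slope w t r := nhdsLT_le_nhdsNE t h1
  have h3 : ∀ᶠ r in 𝓝[<] t, r ∈ Ioo s t := Ioo_mem_nhdsLT hst
  obtain ⟨r, hr1, hr2⟩ := (h2.and h3).exists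
  refine ⟨r, hr2, ?_⟩
  rw [slope_def_field] at hr1
  have hneg : r - t < 0 := sub_neg.mpr hr2.2
  by_contra hcon
  rw [not_lt] at hcon
  have : (w r - w t) / (r - t) ≤ 0 := div_nonpos_of_nonneg_of_nonpos (by linarith) hneg.le
  linarith

/-- if all parabolas touching from below have second derivative at most `κ`, then the derivative
grows at most at rate `κ` -/
theorem touch_deriv_le {g : ℝ → ℝ} {a b κ : ℝ}
    (hd : ∀ r ∈ Ioo a b, DifferentiableAt ℝ g r)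
    (hX : ∀ t ∈ Ioo a b, ∀ c p X : ℝ,
      IsLocalMin (fun s => g s - parab t c p X s) t → X ≤ κ)
    {s t : ℝ} (hs : a < s) (hst : s < t) (ht : t < b) :
    deriv g t - deriv g s ≤ κ * (t - s) := by
  by_contra hcon
  rw [not_le] at hcon
  have hts : 0 < t - s := sub_pos.mpr hst
  set η : ℝ := (deriv g t - deriv g s - κ * (t - s)) / (2 * (t - s)) with hη
  have hηpos : 0 < η := by
    rw [hη]; apply div_pos <;> linarith
  have hηe : η * (t - s) = (deriv g t - deriv g s - κ * (t - s)) / 2 := by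
    rw [hη]; field_simp
  set κ' : ℝ := κ + η with hκ'
  have h1 : 0 < deriv g t - deriv g s - κ' * (t - s) := by
    rw [hκ']; nlinarith
  set μ : ℝ := ((deriv g s - κ' * s) + (deriv g t - κ' * t)) / 2 with hμ
  let w : ℝ → ℝ := fun r => g r - (κ' / 2 * r ^ 2 + μ * r)
  have hw : ∀ r ∈ Ioo a b, HasDerivAt w (deriv g r - (κ' * r + μ)) r := by
    intro r hr
    have hg := (hd r hr).hasDerivAt
    have h2 : HasDerivAt (fun r : ℝ => r ^ 2) (2 * r) r := by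
      simpa using hasDerivAt_pow 2 r
    have hq : HasDerivAt (fun r : ℝ => κ' / 2 * r ^ 2 + μ * r) (κ' / 2 * (2 * r) + μ * 1) r :=
      (h2.const_mul (κ' / 2)).add ((hasDerivAt_id r).const_mul μ)
    have hq' : HasDerivAt (fun r : ℝ => κ' / 2 * r ^ 2 + μ * r) (κ' * r + μ) r :=
      hq.congr_deriv (by ring)
    exact hg.sub hq'
  have hsmem : s ∈ Ioo a b := ⟨hs, lt_trans hst ht⟩
  have htmem : t ∈ Ioo a b := ⟨lt_trans hs hst, ht⟩
  have hws : deriv g s - (κ' * s + μ) < 0 := by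
    rw [hμ]; linarith
  have hwt : 0 < deriv g t - (κ' * t + μ) := by
    rw [hμ]; linarith
  have hsub : Icc s t ⊆ Ioo a b :=
    fun y hy => ⟨lt_of_lt_of_le hs hy.1, lt_of_le_of_lt hy.2 ht⟩
  have hwc : ContinuousOn w (Icc s t) :=
    fun y hy => (hw y (hsub hy)).continuousAt.continuousWithinAt
  obtain ⟨r0, hr0mem, hr0min⟩ := isCompact_Icc.exists_isMinOn (nonempty_Icc.mpr hst.le) hwc
  have hs1 : s < r0 := by
    rcases eq_or_lt_of_le hr0mem.1 with h | h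
    · obtain ⟨r, hr, hlt⟩ := exists_lt_of_deriv_neg (hw s hsmem) hws hst
      have := hr0min (Ioo_subset_Icc_self hr)
      rw [← h] at this
      exact absurd hlt (not_lt.mpr this)
    · exact h
  have h1t : r0 < t := by
    rcases eq_or_lt_of_le hr0mem.2 with h | h
    · obtain ⟨r, hr, hlt⟩ := exists_lt_of_deriv_pos (hw t htmem) hwt hst
      have := hr0min (Ioo_subset_Icc_self hr)
      rw [h] at this
      exact absurd hlt (not_lt.mpr this)
    · exact h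
  have hloc : IsLocalMin w r0 :=
    Filter.eventually_of_mem (Icc_mem_nhds hs1 h1t) (fun y hy => hr0min hy)
  have heq : (fun y => g y - parab r0 (κ' / 2 * r0 ^ 2 + μ * r0) (κ' * r0 + μ) κ' y) = w := by
    funext y
    simp only [parab, w]; ring
  have := hX r0 (hsub hr0mem) (κ' / 2 * r0 ^ 2 + μ * r0) (κ' * r0 + μ) κ'
    (by rw [heq]; exact hloc)
  rw [hκ'] at this
  linarith

theorem touch_slope {g : ℝ → ℝ} {t c p X : ℝ} (hd : DifferentiableAt ℝ g t)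
    (h : IsLocalMin (fun s => g s - parab t c p X s) t) : p = deriv g t := by
  have h1 : HasDerivAt (fun s => g s - parab t c p X s) (deriv g t - (p + X * (t - t))) t :=
    hd.hasDerivAt.sub (parab_hasDerivAt t c p X t)
  have h2 := h.hasDerivAt_eq_zero h1
  rw [sub_self, mul_zero, add_zero] at h2
  linarith

theorem near_one_bounds {u v τ : ℝ} (hτ : 0 < τ) (hτ2 : τ ≤ 1 / 2) (hu : |u - 1| < τ)
    (hv : |v - 1| < τ) : (1 - τ) ^ 2 < u * v ∧ u * v < (1 + τ) ^ 2 := by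
  rw [abs_lt] at hu hv
  have h1 : 0 < 1 - τ := by linarith
  constructor
  · have := mul_lt_mul'' (by linarith : 1 - τ < u) (by linarith : 1 - τ < v) h1.le h1.le
    nlinarith
  · have := mul_lt_mul'' (by linarith : u < 1 + τ) (by linarith : v < 1 + τ)
      (by linarith : (0 : ℝ) ≤ u) (by linarith : (0 : ℝ) ≤ v)
    nlinarith

theorem curv_nonneg {p w p0 τ M X : ℝ} (hp0 : p0 ≠ 0) (hτ : 0 < τ) (hτ2 : τ ≤ 1 / 2)
    (hM : 0 ≤ M) (hp : p = w * p0) (hw : |w - 1| < τ) (hjet : p ^ 2 * X ≤ M) :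
    X ≤ M / ((1 - τ) ^ 2 * p0 ^ 2) := by
  have hP : 0 < p0 ^ 2 := by positivity
  have h1τ : 0 < 1 - τ := by linarith
  have hq1 : 0 < (1 - τ) ^ 2 * p0 ^ 2 := by positivity
  have hpp := near_one_bounds hτ hτ2 hw hw
  have hp2 : p ^ 2 = (w * w) * p0 ^ 2 := by rw [hp]; ring
  rw [le_div_iff₀ hq1]
  rcases le_or_gt X 0 with hX0 | hX0
  · have : X * ((1 - τ) ^ 2 * p0 ^ 2) ≤ 0 := mul_nonpos_of_nonpos_of_nonneg hX0 hq1.le
    linarith
  · have h5 : (1 - τ) ^ 2 * p0 ^ 2 ≤ p ^ 2 := by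
      rw [hp2]; exact mul_le_mul_of_nonneg_right hpp.1.le hP.le
    have : X * ((1 - τ) ^ 2 * p0 ^ 2) ≤ X * p ^ 2 := mul_le_mul_of_nonneg_left h5 hX0.le
    linarith

theorem curv_neg {p w p0 τ M X : ℝ} (hp0 : p0 ≠ 0) (hτ : 0 < τ) (hτ2 : τ ≤ 1 / 2)
    (hM : M < 0) (hp : p = w * p0) (hw : |w - 1| < τ) (hjet : p ^ 2 * X ≤ M) :
    X ≤ M / ((1 + τ) ^ 2 * p0 ^ 2) := by
  have hP : 0 < p0 ^ 2 := by positivity
  have h1τ : 0 < 1 - τ := by linarith
  have hq2 : 0 < (1 + τ) ^ 2 * p0 ^ 2 := by positivity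
  have hpp := near_one_bounds hτ hτ2 hw hw
  have hp2 : p ^ 2 = (w * w) * p0 ^ 2 := by rw [hp]; ring
  have hww : 0 < w * w := lt_trans (by positivity) hpp.1
  have hp2pos : 0 < p ^ 2 := by rw [hp2]; positivity
  have hX0 : X < 0 := by
    by_contra hcon
    rw [not_lt] at hcon
    have : 0 ≤ p ^ 2 * X := mul_nonneg hp2pos.le hcon
    linarith
  rw [le_div_iff₀ hq2]
  have h5 : p ^ 2 ≤ (1 + τ) ^ 2 * p0 ^ 2 := by
    rw [hp2]; exact mul_le_mul_of_nonneg_right hpp.2.le hP.le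
  have : X * ((1 + τ) ^ 2 * p0 ^ 2) ≤ X * p ^ 2 := mul_le_mul_of_nonpos_left h5 hX0.le
  linarith

theorem cube_alg_aux {x y u v p0 τ : ℝ} (hp0 : p0 ≠ 0) (hτ : 0 < τ) (hτ2 : τ ≤ 1 / 2)
    (hx : x = u * p0) (hy : y = v * p0) (hu : |u - 1| < τ) (hv : |v - 1| < τ) :
    x ^ 3 - y ^ 3 = (x - y) * ((u ^ 2 + u * v + v ^ 2) * p0 ^ 2) ∧
    3 * (1 - τ) ^ 2 * p0 ^ 2 ≤ (u ^ 2 + u * v + v ^ 2) * p0 ^ 2 ∧
    (u ^ 2 + u * v + v ^ 2) * p0 ^ 2 ≤ 3 * (1 + τ) ^ 2 * p0 ^ 2 := by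
  have hP : 0 < p0 ^ 2 := by positivity
  have huv := near_one_bounds hτ hτ2 hu hv
  have huu := near_one_bounds hτ hτ2 hu hu
  have hvv := near_one_bounds hτ hτ2 hv hv
  refine ⟨by rw [hx, hy]; ring, ?_, ?_⟩
  · have : 3 * (1 - τ) ^ 2 ≤ u ^ 2 + u * v + v ^ 2 := by nlinarith [huv.1, huu.1, hvv.1]
    exact mul_le_mul_of_nonneg_right this hP.le
  · have : u ^ 2 + u * v + v ^ 2 ≤ 3 * (1 + τ) ^ 2 := by nlinarith [huv.2, huu.2, hvv.2]
    exact mul_le_mul_of_nonneg_right this hP.le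

theorem cube_alg_nonneg {x y u v p0 τ M ε h : ℝ} (hp0 : p0 ≠ 0) (hτ : 0 < τ) (hτ2 : τ ≤ 1 / 2)
    (hM : 0 ≤ M) (hτM : 48 * |M| * τ ≤ ε) (hx : x = u * p0) (hy : y = v * p0)
    (hu : |u - 1| < τ) (hv : |v - 1| < τ) (hh : 0 < h)
    (hD : x - y ≤ M / ((1 - τ) ^ 2 * p0 ^ 2) * h) :
    x ^ 3 - y ^ 3 ≤ (3 * M + ε) * h := by
  obtain ⟨hfac, hUlo, hUhi⟩ := cube_alg_aux hp0 hτ hτ2 hx hy hu hv
  have hP : 0 < p0 ^ 2 := by positivity
  have h1τ : 0 < 1 - τ := by linarith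
  have hq1 : 0 < (1 - τ) ^ 2 * p0 ^ 2 := by positivity
  have hUpos : 0 < (u ^ 2 + u * v + v ^ 2) * p0 ^ 2 := lt_of_lt_of_le (by positivity) hUlo
  set κ : ℝ := M / ((1 - τ) ^ 2 * p0 ^ 2) with hκ
  have hκ0 : 0 ≤ κ := div_nonneg hM hq1.le
  have hκts : 0 ≤ κ * h := mul_nonneg hκ0 hh.le
  have h6 : (x - y) * ((u ^ 2 + u * v + v ^ 2) * p0 ^ 2) ≤
      κ * h * (3 * (1 + τ) ^ 2 * p0 ^ 2) := by
    rcases le_or_gt (x - y) 0 with hneg | hpos
    · have a1 : (x - y) * ((u ^ 2 + u * v + v ^ 2) * p0 ^ 2) ≤ 0 :=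
        mul_nonpos_of_nonpos_of_nonneg hneg hUpos.le
      have a2 : 0 ≤ κ * h * (3 * (1 + τ) ^ 2 * p0 ^ 2) := by positivity
      linarith
    · exact mul_le_mul hD hUhi hUpos.le hκts
  have h7 : κ * (3 * (1 + τ) ^ 2 * p0 ^ 2) ≤ 3 * M + ε := by
    have e : κ * (3 * (1 + τ) ^ 2 * p0 ^ 2) = 3 * M * (1 + τ) ^ 2 / (1 - τ) ^ 2 := by
      rw [hκ]; field_simp
    rw [e, div_le_iff₀ (by positivity)]
    have h8 : (1 : ℝ) / 4 ≤ (1 - τ) ^ 2 := by nlinarith
    have h9 : |M| = M := abs_of_nonneg hM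
    rw [h9] at hτM
    have hε0 : 0 ≤ ε := le_trans (by positivity) hτM
    have h10 : ε * (1 / 4) ≤ ε * (1 - τ) ^ 2 := mul_le_mul_of_nonneg_left h8 hε0
    have id1 : 3 * M * (1 + τ) ^ 2 = 3 * M * (1 - τ) ^ 2 + 12 * M * τ := by ring
    have id2 : (3 * M + ε) * (1 - τ) ^ 2 = 3 * M * (1 - τ) ^ 2 + ε * (1 - τ) ^ 2 := by ring
    rw [id1, id2]
    linarith
  rw [hfac]
  calc (x - y) * ((u ^ 2 + u * v + v ^ 2) * p0 ^ 2)
      ≤ κ * h * (3 * (1 + τ) ^ 2 * p0 ^ 2) := h6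
    _ = κ * (3 * (1 + τ) ^ 2 * p0 ^ 2) * h := by ring
    _ ≤ (3 * M + ε) * h := mul_le_mul_of_nonneg_right h7 hh.le

theorem cube_alg_neg {x y u v p0 τ M ε h : ℝ} (hp0 : p0 ≠ 0) (hτ : 0 < τ) (hτ2 : τ ≤ 1 / 2)
    (hM : M < 0) (hτM : 48 * |M| * τ ≤ ε) (hx : x = u * p0) (hy : y = v * p0)
    (hu : |u - 1| < τ) (hv : |v - 1| < τ) (hh : 0 < h)
    (hD : x - y ≤ M / ((1 + τ) ^ 2 * p0 ^ 2) * h) :
    x ^ 3 - y ^ 3 ≤ (3 * M + ε) * h := by
  obtain ⟨hfac, hUlo, hUhi⟩ := cube_alg_aux hp0 hτ hτ2 hx hy hu hv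
  have hP : 0 < p0 ^ 2 := by positivity
  have h1τ : 0 < 1 - τ := by linarith
  have hq2 : 0 < (1 + τ) ^ 2 * p0 ^ 2 := by positivity
  have hUpos : 0 < (u ^ 2 + u * v + v ^ 2) * p0 ^ 2 := lt_of_lt_of_le (by positivity) hUlo
  set κ : ℝ := M / ((1 + τ) ^ 2 * p0 ^ 2) with hκ
  have hκ0 : κ < 0 := div_neg_of_neg_of_pos hM hq2
  have hκts : κ * h < 0 := mul_neg_of_neg_of_pos hκ0 hh
  have h6 : (x - y) * ((u ^ 2 + u * v + v ^ 2) * p0 ^ 2) ≤
      κ * h * (3 * (1 - τ) ^ 2 * p0 ^ 2) := by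
    have a1 : (x - y) * ((u ^ 2 + u * v + v ^ 2) * p0 ^ 2) ≤
        κ * h * ((u ^ 2 + u * v + v ^ 2) * p0 ^ 2) :=
      mul_le_mul_of_nonneg_right hD hUpos.le
    have a2 : κ * h * ((u ^ 2 + u * v + v ^ 2) * p0 ^ 2) ≤
        κ * h * (3 * (1 - τ) ^ 2 * p0 ^ 2) :=
      mul_le_mul_of_nonpos_left hUlo hκts.le
    linarith
  have h7 : κ * (3 * (1 - τ) ^ 2 * p0 ^ 2) ≤ 3 * M + ε := by
    have e : κ * (3 * (1 - τ) ^ 2 * p0 ^ 2) = 3 * M * (1 - τ) ^ 2 / (1 + τ) ^ 2 := by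
      rw [hκ]; field_simp
    rw [e, div_le_iff₀ (by positivity)]
    have h9 : |M| = -M := abs_of_neg hM
    rw [h9] at hτM
    have hε0 : 0 ≤ ε := le_trans (by nlinarith) hτM
    have h8 : (1 : ℝ) ≤ (1 + τ) ^ 2 := by nlinarith
    have h10 : ε * 1 ≤ ε * (1 + τ) ^ 2 := mul_le_mul_of_nonneg_left h8 hε0
    have id1 : 3 * M * (1 - τ) ^ 2 = 3 * M * (1 + τ) ^ 2 + 12 * (-M) * τ := by ring
    have id2 : (3 * M + ε) * (1 + τ) ^ 2 = 3 * M * (1 + τ) ^ 2 + ε * (1 + τ) ^ 2 := by ring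
    rw [id1, id2]
    linarith
  rw [hfac]
  calc (x - y) * ((u ^ 2 + u * v + v ^ 2) * p0 ^ 2)
      ≤ κ * h * (3 * (1 - τ) ^ 2 * p0 ^ 2) := h6
    _ = κ * (3 * (1 - τ) ^ 2 * p0 ^ 2) * h := by ring
    _ ≤ (3 * M + ε) * h := mul_le_mul_of_nonneg_right h7 hh.le

/-- near a non-critical point the cube of the derivative grows at most at rate `3 M + ε` -/
theorem local_cube_bound {g : ℝ → ℝ} {α β M : ℝ}
    (hd : ∀ r ∈ Ioo α β, DifferentiableAt ℝ g r) (hc : ContinuousOn (deriv g) (Ioo α β))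
    (hJ : LowJet g α β M) {r0 : ℝ} (hr0 : r0 ∈ Ioo α β) (hne : deriv g r0 ≠ 0) {ε : ℝ}
    (hε : 0 < ε) :
    ∃ δ > 0, Ioo (r0 - δ) (r0 + δ) ⊆ Ioo α β ∧ ∀ s t, r0 - δ < s → s < t → t < r0 + δ →
      deriv g t ^ 3 - deriv g s ^ 3 ≤ (3 * M + ε) * (t - s) := by
  obtain ⟨τ, hτpos, hτhalf, hτM⟩ : ∃ τ : ℝ, 0 < τ ∧ τ ≤ 1 / 2 ∧ 48 * |M| * τ ≤ ε := by
    have hden : 0 < 48 * |M| + 1 := by positivity
    refine ⟨min (1 / 2) (ε / (48 * |M| + 1)), lt_min (by norm_num) (by positivity),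
      min_le_left _ _, ?_⟩
    have h1 : min (1 / 2) (ε / (48 * |M| + 1)) ≤ ε / (48 * |M| + 1) := min_le_right _ _
    have h3 : min (1 / 2) (ε / (48 * |M| + 1)) * (48 * |M| + 1) ≤ ε := by
      rwa [le_div_iff₀ hden] at h1
    have h4 : 0 < min (1 / 2) (ε / (48 * |M| + 1)) := lt_min (by norm_num) (by positivity)
    nlinarith [abs_nonneg M]
  have hcat : ContinuousAt (deriv g) r0 := hc.continuousAt (isOpen_Ioo.mem_nhds hr0)
  have hev : ∀ᶠ r in 𝓝 r0, |deriv g r / deriv g r0 - 1| < τ := by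
    have h1 : ContinuousAt (fun r => deriv g r / deriv g r0) r0 := hcat.div_const _
    have h2 : Tendsto (fun r => deriv g r / deriv g r0) (𝓝 r0) (𝓝 1) := by
      have := h1.tendsto
      rwa [show deriv g r0 / deriv g r0 = 1 from div_self hne] at this
    have := (Metric.tendsto_nhds.mp h2) τ hτpos
    simpa [Real.dist_eq] using this
  have hev2 : ∀ᶠ r in 𝓝 r0, r ∈ Ioo α β := isOpen_Ioo.mem_nhds hr0
  obtain ⟨δ, hδ, hball⟩ := Metric.eventually_nhds_iff.mp (hev.and hev2)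
  have hN : ∀ y, r0 - δ < y → y < r0 + δ →
      |deriv g y / deriv g r0 - 1| < τ ∧ y ∈ Ioo α β := by
    intro y h1 h2
    exact hball (by rw [Real.dist_eq, abs_lt]; constructor <;> linarith)
  refine ⟨δ, hδ, fun y hy => (hN y hy.1 hy.2).2, ?_⟩
  intro s t hs hst ht
  have hts : 0 < t - s := sub_pos.mpr hst
  have hsN := hN s hs (lt_trans hst ht)
  have htN := hN t (lt_trans hs hst) ht
  have hxu : deriv g t = deriv g t / deriv g r0 * deriv g r0 := by field_simp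
  have hyv : deriv g s = deriv g s / deriv g r0 * deriv g r0 := by field_simp
  have hdN : ∀ r ∈ Ioo (r0 - δ) (r0 + δ), DifferentiableAt ℝ g r :=
    fun r hr => hd r (hN r hr.1 hr.2).2
  by_cases hM : 0 ≤ M
  · have hX : ∀ t' ∈ Ioo (r0 - δ) (r0 + δ), ∀ c p X : ℝ,
        IsLocalMin (fun s => g s - parab t' c p X s) t' →
          X ≤ M / ((1 - τ) ^ 2 * deriv g r0 ^ 2) := by
      intro t' ht' c p X hloc
      have ht'N := hN t' ht'.1 ht'.2
      have hp : p = deriv g t' := touch_slope (hd t' ht'N.2) hloc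
      have hp' : p = deriv g t' / deriv g r0 * deriv g r0 := by rw [hp]; field_simp
      exact curv_nonneg hne hτpos hτhalf hM hp' ht'N.1 (hJ t' ht'N.2.1 ht'N.2.2 c p X hloc)
    have hD := touch_deriv_le hdN hX hs hst ht
    exact cube_alg_nonneg hne hτpos hτhalf hM hτM hxu hyv htN.1 hsN.1 hts hD
  · rw [not_le] at hM
    have hX : ∀ t' ∈ Ioo (r0 - δ) (r0 + δ), ∀ c p X : ℝ,
        IsLocalMin (fun s => g s - parab t' c p X s) t' →
          X ≤ M / ((1 + τ) ^ 2 * deriv g r0 ^ 2) := by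
      intro t' ht' c p X hloc
      have ht'N := hN t' ht'.1 ht'.2
      have hp : p = deriv g t' := touch_slope (hd t' ht'N.2) hloc
      have hp' : p = deriv g t' / deriv g r0 * deriv g r0 := by rw [hp]; field_simp
      exact curv_neg hne hτpos hτhalf hM hp' ht'N.1 (hJ t' ht'N.2.1 ht'N.2.2 c p X hloc)
    have hD := touch_deriv_le hdN hX hs hst ht
    exact cube_alg_neg hne hτpos hτhalf hM hτM hxu hyv htN.1 hsN.1 hts hD

/-- the sharp bound on an interval without critical points, except possibly the right end -/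
theorem cube_bound_Ico {g : ℝ → ℝ} {α β M : ℝ}
    (hd : ∀ r ∈ Ioo α β, DifferentiableAt ℝ g r) (hc : ContinuousOn (deriv g) (Ioo α β))
    (hJ : LowJet g α β M) {s t : ℝ} (hs : α < s) (hst : s ≤ t) (ht : t < β)
    (hne : ∀ r ∈ Ico s t, deriv g r ≠ 0) :
    deriv g t ^ 3 - deriv g s ^ 3 ≤ 3 * M * (t - s) := by
  have hsub : Icc s t ⊆ Ioo α β :=
    fun y hy => ⟨lt_of_lt_of_le hs hy.1, lt_of_le_of_lt hy.2 ht⟩
  have key : ∀ ε > 0, deriv g t ^ 3 - deriv g s ^ 3 ≤ (3 * M + ε) * (t - s) := by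
    intro ε hε
    let H : ℝ → ℝ := fun r => deriv g r ^ 3 - (3 * M + ε) * r
    have hHc : ContinuousOn H (Icc s t) := by
      apply ContinuousOn.sub
      · exact (hc.mono hsub).pow 3
      · exact (continuous_const.mul continuous_id).continuousOn
    let S : Set ℝ := {r | H r ≤ H s}
    have hclosed : IsClosed (S ∩ Icc s t) := by
      have e : S ∩ Icc s t = Icc s t ∩ H ⁻¹' (Iic (H s)) := by
        ext r
        simp only [S, mem_inter_iff, mem_setOf_eq, mem_preimage, mem_Iic]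
        tauto
      rw [e]
      exact hHc.preimage_isClosed_of_isClosed isClosed_Icc isClosed_Iic
    have hmem : s ∈ S := le_refl (H s)
    have hstep : ∀ x ∈ S ∩ Ico s t, S ∈ 𝓝[>] x := by
      intro x hx
      have hxmem : x ∈ Ioo α β := hsub ⟨hx.2.1, hx.2.2.le⟩
      obtain ⟨δ, hδ, -, hb⟩ := local_cube_bound hd hc hJ hxmem (hne x hx.2) hε
      have hsubS : Ioo x (x + δ) ⊆ S := by
        intro r hr
        have h1 := hb x r (by linarith) hr.1 hr.2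
        have h2 : H r ≤ H x := by
          simp only [H]; linarith
        exact le_trans h2 hx.1
      exact mem_of_superset (Ioo_mem_nhdsGT (by linarith)) hsubS
    have hall := hclosed.Icc_subset_of_forall_mem_nhdsWithin hmem hstep
    have htS : H t ≤ H s := hall (right_mem_Icc.mpr hst)
    simp only [H] at htS
    linarith
  by_contra hcon
  rw [not_le] at hcon
  have hts : 0 ≤ t - s := sub_nonneg.mpr hst
  set gap : ℝ := deriv g t ^ 3 - deriv g s ^ 3 - 3 * M * (t - s) with hgap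
  have hgpos : 0 < gap := by linarith
  have hk := key (gap / (2 * (t - s) + 1)) (by positivity)
  have h1 : gap / (2 * (t - s) + 1) * (t - s) ≤ gap / 2 := by
    rw [div_mul_eq_mul_div, div_le_div_iff₀ (by positivity) (by norm_num)]
    nlinarith
  have h2 : (3 * M + gap / (2 * (t - s) + 1)) * (t - s) =
      3 * M * (t - s) + gap / (2 * (t - s) + 1) * (t - s) := by ring
  rw [h2] at hk
  linarith

/-- the sharp bound on an interval without interior critical points -/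
theorem cube_bound_Ioo {g : ℝ → ℝ} {α β M : ℝ}
    (hd : ∀ r ∈ Ioo α β, DifferentiableAt ℝ g r) (hc : ContinuousOn (deriv g) (Ioo α β))
    (hJ : LowJet g α β M) {s t : ℝ} (hs : α < s) (hst : s ≤ t) (ht : t < β)
    (hne : ∀ r ∈ Ioo s t, deriv g r ≠ 0) :
    deriv g t ^ 3 - deriv g s ^ 3 ≤ 3 * M * (t - s) := by
  rcases eq_or_lt_of_le hst with h | h
  · subst h; simp
  have hsmem : s ∈ Ioo α β := ⟨hs, lt_trans h ht⟩
  have hcs : ContinuousAt (deriv g) s := hc.continuousAt (isOpen_Ioo.mem_nhds hsmem)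
  have hF : ContinuousAt (fun s' => deriv g t ^ 3 - deriv g s' ^ 3 - 3 * M * (t - s')) s := by
    apply ContinuousAt.sub
    · exact continuousAt_const.sub (hcs.pow 3)
    · exact (continuous_const.mul (continuous_const.sub continuous_id)).continuousAt
  have hev : ∀ᶠ s' in 𝓝[>] s, deriv g t ^ 3 - deriv g s' ^ 3 - 3 * M * (t - s') ≤ 0 := by
    filter_upwards [Ioo_mem_nhdsGT h] with s' hs'
    have := cube_bound_Ico hd hc hJ (lt_trans hs hs'.1) hs'.2.le ht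
      (fun r hr => hne r ⟨lt_of_lt_of_le hs'.1 hr.1, hr.2⟩)
    linarith
  have hlim : Tendsto (fun s' => deriv g t ^ 3 - deriv g s' ^ 3 - 3 * M * (t - s')) (𝓝[>] s)
      (𝓝 (deriv g t ^ 3 - deriv g s ^ 3 - 3 * M * (t - s))) :=
    hF.tendsto.mono_left nhdsWithin_le_nhds
  have := le_of_tendsto hlim hev
  linarith

theorem no_two_zeros_of_neg {g : ℝ → ℝ} {α β M : ℝ}
    (hd : ∀ r ∈ Ioo α β, DifferentiableAt ℝ g r) (hJ : LowJet g α β M) (hM : M < 0)
    {z1 z2 : ℝ} (h1 : α < z1) (h12 : z1 < z2) (h2 : z2 < β)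
    (e1 : deriv g z1 = 0) (e2 : deriv g z2 = 0) : False := by
  have hX : ∀ t ∈ Ioo α β, ∀ c p X : ℝ,
      IsLocalMin (fun s => g s - parab t c p X s) t → X ≤ 0 := by
    intro t ht c p X hloc
    have hj := hJ t ht.1 ht.2 c p X hloc
    by_contra hcon
    rw [not_le] at hcon
    have : 0 ≤ p ^ 2 * X := by positivity
    linarith
  have hzero : ∀ r ∈ Ioo z1 z2, deriv g r = 0 := by
    intro r hr
    have a1 := touch_deriv_le hd hX h1 hr.1 (lt_trans hr.2 h2)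
    have a2 := touch_deriv_le hd hX (lt_trans h1 hr.1) hr.2 h2
    rw [e1] at a1
    rw [e2] at a2
    linarith
  have hdiff : DifferentiableOn ℝ g (Ioo z1 z2) := fun r hr =>
    (hd r ⟨lt_trans h1 hr.1, lt_trans hr.2 h2⟩).differentiableWithinAt
  have hEq : (Ioo z1 z2).EqOn (deriv g) 0 := fun r hr => hzero r hr
  set zm : ℝ := (z1 + z2) / 2 with hzmdef
  have hzm : zm ∈ Ioo z1 z2 := ⟨by rw [hzmdef]; linarith, by rw [hzmdef]; linarith⟩
  have hloc : IsLocalMin (fun s => g s - parab zm (g zm) 0 0 s) zm := by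
    have hnh : ∀ᶠ r in 𝓝 zm, r ∈ Ioo z1 z2 := isOpen_Ioo.mem_nhds hzm
    filter_upwards [hnh] with r hr
    have := isOpen_Ioo.is_const_of_deriv_eq_zero isPreconnected_Ioo hdiff hEq hr hzm
    simp only [parab]
    rw [this]
    simp
  have := hJ zm (lt_trans h1 hzm.1) (lt_trans hzm.2 h2) (g zm) 0 0 hloc
  norm_num at this
  linarith

/-- **Sharp one-dimensional estimate**: if `g` is `C^1` on `(α, β)` and every parabola touching `g`
from below has `p ^ 2 * X ≤ M`, then `(g') ^ 3 - 3 M t` is nonincreasing. -/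
theorem sharp_cube {g : ℝ → ℝ} {α β M : ℝ}
    (hd : ∀ r ∈ Ioo α β, DifferentiableAt ℝ g r) (hc : ContinuousOn (deriv g) (Ioo α β))
    (hJ : LowJet g α β M) {s t : ℝ} (hs : α < s) (hst : s ≤ t) (ht : t < β) :
    deriv g t ^ 3 - deriv g s ^ 3 ≤ 3 * M * (t - s) := by
  have hsub : Icc s t ⊆ Ioo α β :=
    fun y hy => ⟨lt_of_lt_of_le hs hy.1, lt_of_le_of_lt hy.2 ht⟩
  let Z : Set ℝ := Icc s t ∩ (deriv g) ⁻¹' {0}
  have hZclosed : IsClosed Z :=
    (hc.mono hsub).preimage_isClosed_of_isClosed isClosed_Icc isClosed_singleton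
  rcases Z.eq_empty_or_nonempty with hZ | hZ
  · apply cube_bound_Ico hd hc hJ hs hst ht
    intro r hr h0
    have hrZ : r ∈ Z := ⟨⟨hr.1, hr.2.le⟩, h0⟩
    rw [hZ] at hrZ
    exact hrZ
  · have hZcompact : IsCompact Z := isCompact_Icc.of_isClosed_subset hZclosed inter_subset_left
    have hz1 : sInf Z ∈ Z := hZcompact.sInf_mem hZ
    have hz2 : sSup Z ∈ Z := hZcompact.sSup_mem hZ
    have hz12 : sInf Z ≤ sSup Z := le_csSup hZcompact.bddAbove hz1
    have p1 : deriv g (sInf Z) ^ 3 - deriv g s ^ 3 ≤ 3 * M * (sInf Z - s) := by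
      apply cube_bound_Ico hd hc hJ hs hz1.1.1 (lt_of_le_of_lt hz1.1.2 ht)
      intro r hr h0
      have hrZ : r ∈ Z := ⟨⟨hr.1, le_trans hr.2.le hz1.1.2⟩, h0⟩
      have := csInf_le hZcompact.bddBelow hrZ
      linarith [hr.2]
    have p3 : deriv g t ^ 3 - deriv g (sSup Z) ^ 3 ≤ 3 * M * (t - sSup Z) := by
      apply cube_bound_Ioo hd hc hJ (lt_of_lt_of_le hs hz2.1.1) hz2.1.2 ht
      intro r hr h0
      have hrZ : r ∈ Z := ⟨⟨le_trans hz2.1.1 hr.1.le, hr.2.le⟩, h0⟩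
      have := le_csSup hZcompact.bddAbove hrZ
      linarith [hr.1]
    have e1 : deriv g (sInf Z) = 0 := hz1.2
    have e2 : deriv g (sSup Z) = 0 := hz2.2
    have mid : 0 ≤ 3 * M * (sSup Z - sInf Z) := by
      rcases le_or_gt 0 M with hM | hM
      · have : 0 ≤ sSup Z - sInf Z := sub_nonneg.mpr hz12
        positivity
      · have heq : sInf Z = sSup Z := by
          by_contra hne'
          have hlt : sInf Z < sSup Z := lt_of_le_of_ne hz12 hne'
          exact no_two_zeros_of_neg hd hJ hM (lt_of_lt_of_le hs hz1.1.1) hlt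
            (lt_of_le_of_lt hz2.1.2 ht) e1 e2
        rw [heq]; simp
    rw [e1] at p1
    rw [e2] at p3
    have hz : (0 : ℝ) ^ 3 = 0 := by norm_num
    rw [hz] at p1 p3
    linarith

end Vale.Agent.Lib.P080
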